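import Vale.Agent.P271.H244.EndSat
import Vale.Agent.P271.H242.CminES
import Vale.Agent.P271.H58.Sep
import Vale.Agent.P271.Main.CSys

/-!
P271, block 31 (helper244): the END statement of `Main/CSys.lean`.
-/

namespace Vale.Agent.P271.H244

open Finsupp
open Vale.Agent.P271.Sch Vale.Agent.P271.H741 Vale.Agent.P271.Zorn Vale.Agent.P271.Inst
  Vale.Agent.P271.Main

variable {n : ℕ} {C : GCone n}

/-- There is a nonzero homogeneous element vanishing at `z`. -/
theorem exists_hm_zero (hn : 1 ≤ n) {z : C.Pt} (hz : GCone.NV z) : ∃ f : HM C, z (co f) = 0 := by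
  obtain ⟨m2, h⟩ := H58.exists_zero_section C hn
  obtain ⟨g, hg, hg0, hgz⟩ := h m2 le_rfl z hz
  exact ⟨⟨g, mem_HM.2 ⟨hg0, m2, hg⟩⟩, hgz⟩

/-- **END** for the exponent sets of a cone. -/
theorem endStat (hG : GlobEnd) (hn : 1 ≤ n) (S : CSys C) (z : NVPt C)
    (hP : (S.D z).P = ES (n + 1) (fun f : HM C => (f : C.R)) z.1) : S.EndStat z := by
  intro v β hv hpos r _ happ M hM
  obtain ⟨c⟩ := H242.nonempty_chart C z.2
  exact end_sat hG z.2 c hP (S.sum z) hv hpos (exists_hm_zero hn z.2) happ hM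

end Vale.Agent.P271.H244
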