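import Vale.Agent.P271.H112.Dens

/-!
P271, block 31 (helper244): BDEG, second half: a prime which is cut out near one of its points by
a set `G` of its elements is minimal over the ideal generated by `G`.
-/

namespace Vale.Agent.P271.H244

open Filter Topology Vale.Agent.P271.H112

theorem ptNhd_comap_mk {R : Type*} [CommRing R] [IsDomain R] [Algebra ℂ R] (z : R →ₐ[ℂ] ℂ)
    (Q : Ideal R) [Q.IsPrime]
    (hQ : ∀ a ∈ Q, z a = 0) :
    Tendsto (fun π : (R ⧸ Q) →ₐ[ℂ] ℂ => π.comp (Ideal.Quotient.mkₐ ℂ Q))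
      (ptNhd (Ideal.Quotient.liftₐ Q z hQ)) (ptNhd z) := by
  rw [tendsto_ptNhd_iff]
  intro s
  have h := (tendsto_ptNhd_iff (u := fun π : (R ⧸ Q) →ₐ[ℂ] ℂ => π)
    (p := Ideal.Quotient.liftₐ Q z hQ)).1 tendsto_id (Ideal.Quotient.mk Q s)
  have h1 : Ideal.Quotient.liftₐ Q z hQ (Ideal.Quotient.mk Q s) = z s := rfl
  rw [h1] at h
  exact h

/-- A prime `p` in the kernel of the point `z`, which near `z` is cut out by the subset `G ⊆ p`, is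
minimal over `(G)`. -/
theorem mem_minimalPrimes_of_near {R : Type*} [CommRing R] [IsDomain R] [Algebra ℂ R]
    [Algebra.FiniteType ℂ R] (z : R →ₐ[ℂ] ℂ) (p : Ideal R) [p.IsPrime] (hz : ∀ a ∈ p, z a = 0)
    (G : Set R) (hG : ∀ g ∈ G, g ∈ p)
    (hnear : ∀ᶠ y in ptNhd z, (∃ s ∈ p, y s ≠ 0) → ∃ g ∈ G, y g ≠ 0) :
    p ∈ (Ideal.span G).minimalPrimes := by
  refine ⟨⟨inferInstance, Ideal.span_le.2 hG⟩, ?_⟩
  rintro Q ⟨hQp, hQ⟩ hle
  have hle' : Q ≤ p := hle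
  have := hQp
  intro f hf
  by_contra hfQ
  have hQz : ∀ a ∈ Q, z a = 0 := fun a ha => hz a (hle' ha)
  have hne : (Ideal.Quotient.mk Q f) ≠ 0 := fun h => hfQ (Ideal.Quotient.eq_zero_iff_mem.1 h)
  have hft : Algebra.FiniteType ℂ (R ⧸ Q) := inferInstance
  have h1 := dense_points (S := R ⧸ Q) (Ideal.Quotient.liftₐ Q z hQz) hne
  have h2 : ∀ᶠ π in ptNhd (Ideal.Quotient.liftₐ Q z hQz),
      (∃ s ∈ p, (π.comp (Ideal.Quotient.mkₐ ℂ Q)) s ≠ 0) →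
        ∃ g ∈ G, (π.comp (Ideal.Quotient.mkₐ ℂ Q)) g ≠ 0 :=
    (ptNhd_comap_mk z Q hQz).eventually hnear
  have h3 : ∃ᶠ π in ptNhd (Ideal.Quotient.liftₐ Q z hQz), π (Ideal.Quotient.mk Q f) ≠ 0 :=
    frequently_iff_neBot.2 h1
  obtain ⟨π, hπ1, hπ2⟩ := (h3.and_eventually h2).exists
  obtain ⟨g, hg, hgy⟩ := hπ2 ⟨f, hf, hπ1⟩
  have h4 : (Ideal.Quotient.mk Q g) = 0 :=
    Ideal.Quotient.eq_zero_iff_mem.2 (hQ (Ideal.subset_span hg))
  apply hgy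
  change π (Ideal.Quotient.mk Q g) = 0
  rw [h4, map_zero]

end Vale.Agent.P271.H244
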