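import Vale.Agent.P271.Inst.Ev
import Vale.Agent.P271.Inst.Hom
import Vale.Agent.P271.H112.Dens

/-!
P271, block 31 (helper244): the homogeneous elements in a chart; the points with the same vanishing
homogeneous elements as `z` form the orbit of `z`; weights attached to exponent vectors.
-/

namespace Vale.Agent.P271.H244

open Filter Topology Metric Set MeasureTheory Finsupp
open Vale.Agent.P271.Sch Vale.Agent.P271.H741 Vale.Agent.P271.Zorn Vale.Agent.P271.Inst
open scoped ENNReal Vale.Agent.P271.Inst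

variable {n : ℕ} {C : GCone n} {z : C.Pt} {m : ℕ}

theorem ptNhd_eq {R : Type*} [CommRing R] [Algebra ℂ R] (z : R →ₐ[ℂ] ℂ) :
    H112.ptNhd z = 𝓝 z := by
  rw [H112.ptNhd, nhds_induced]

/-- The coercion of the homogeneous elements. -/
abbrev co (f : HM C) : C.R := f

theorem not_ev_zero (c : Chart z m) {f : C.R} (hf : f ≠ 0) :
    ¬ ∀ᶠ x in 𝓝 (0 : Fin m → ℂ), c.ψ x f = 0 := by
  intro h
  have h1 : ∀ᶠ χ in 𝓝 z, χ f = 0 := by
    rw [← c.map_nhds, Filter.eventually_map]
    exact h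
  have := C.finiteType
  have h2 := H112.dense_points z hf
  rw [ptNhd_eq] at h2
  have h3 : ∃ᶠ χ in 𝓝 z, χ f ≠ 0 := frequently_iff_neBot.2 h2
  obtain ⟨χ, h4, h5⟩ := (h3.and_eventually h1).exists
  exact h4 h5

/-- The homogeneous elements in a chart. -/
theorem isEv_chart (c : Chart z m) :
    IsEv volume (𝓝 0) (fun (f : HM C) x => c.ψ x (co f)) := by
  refine Inst.isEv (fun f => c.holo _ 0 c.mem0) (fun f g => ?_) (fun f => not_ev_zero c f.2.1)
  exact Eventually.of_forall fun x => map_mul _ _ _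

/-- A nonzero homogeneous element nonvanishing at `z` may be inserted with any exponent. -/
theorem unit_ES (c : Chart z m) {f : HM C} (hf : z (co f) ≠ 0) {k : HM C →₀ ℝ}
    (hk : k ∈ ES m co z) (t : ℝ) : k + single f t ∈ ES m co z := by
  rw [ES_eq_PP c] at hk ⊢
  have h0 : 0 < ‖z (co f)‖ := norm_pos_iff.2 hf
  refine (isEv_chart c).mem_unit (c := ‖z (co f)‖ / 2) (by positivity) ?_ k hk t
  refine Filter.Eventually.filter_mono inf_le_left ?_
  have h1 : ContinuousAt (fun x => ‖c.ψ x (co f)‖) 0 := (c.holo _ 0 c.mem0).continuousAt.norm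
  have h2 : ∀ᶠ x in 𝓝 (0 : Fin m → ℂ), ‖z (co f)‖ / 2 < ‖c.ψ x (co f)‖ := by
    refine h1.tendsto.eventually_const_lt ?_
    rw [c.zero]
    linarith
  exact h2.mono fun x hx => hx.le

/-- The points near `z` have a chart. -/
theorem near_chart (c : Chart z m) : ∀ᶠ χ in 𝓝 z, Nonempty (Chart χ m) := by
  rw [← c.map_nhds, Filter.eventually_map]
  filter_upwards [c.exists_shift] with x hx
  obtain ⟨c', -⟩ := hx
  exact ⟨c'⟩

/-! ### the orbit -/

section orbit

variable {φ : C.Pt}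

/-- If the homogeneous elements vanishing at `z` vanish at `φ`, then `φ f * z g = z f * φ g` for all
`f, g ∈ A k`. -/
theorem ratio (h : ∀ j, ∀ g ∈ C.A j, z g = 0 → φ g = 0) {k : ℕ} {f g : C.R} (hf : f ∈ C.A k)
    (hg : g ∈ C.A k) : φ f * z g = z f * φ g := by
  have h1 : z g • f - z f • g ∈ C.A k :=
    sub_mem (Submodule.smul_mem _ _ hf) (Submodule.smul_mem _ _ hg)
  have h2 := h k _ h1 (by
    rw [map_sub, map_smul, map_smul, smul_eq_mul, smul_eq_mul]
    ring)
  rw [map_sub, map_smul, map_smul, smul_eq_mul, smul_eq_mul] at h2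
  linear_combination h2

theorem ne_of_NV (h : ∀ j, ∀ g ∈ C.A j, z g = 0 → φ g = 0) (hφ : GCone.NV φ) {k : ℕ} {g : C.R}
    (hg : g ∈ C.A k) (hgz : z g ≠ 0) : φ g ≠ 0 := by
  intro h0
  rcases Nat.eq_zero_or_pos k with hk | hk
  · subst hk
    obtain ⟨c, rfl⟩ := C.zero g hg
    rw [AlgHom.commutes] at h0 hgz
    exact hgz h0
  · obtain ⟨j, hj, s, hs, hsφ⟩ := hφ
    have h1 : s ^ k ∈ C.A (j * k) := by
      have := SetLike.pow_mem_graded k hs
      simpa [mul_comm] using this
    have h2 : g ^ j ∈ C.A (j * k) := by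
      have := SetLike.pow_mem_graded j hg
      simpa using this
    have h3 := ratio h h1 h2
    rw [map_pow, map_pow, map_pow, map_pow, h0, zero_pow hj.ne', mul_zero] at h3
    rcases mul_eq_zero.1 h3 with h4 | h4
    · exact hsφ (pow_eq_zero_iff hk.ne' |>.1 h4)
    · exact hgz (pow_eq_zero_iff hj.ne' |>.1 h4)

/-- The points (different from the vertex) at which all homogeneous elements of the ideal of `z`
vanish form the orbit of `z`. -/
theorem exists_tact (hz : GCone.NV z) (hφ : GCone.NV φ)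
    (h : ∀ j, ∀ g ∈ C.A j, z g = 0 → φ g = 0) : ∃ τ : ℂ, τ ≠ 0 ∧ GCone.tact τ z = φ := by
  -- the maximal ideal of `z`
  obtain ⟨k0, hk0, s0, hs0, hs0z⟩ := hz
  have hmax : (RingHom.ker z.toRingHom).IsMaximal :=
    RingHom.ker_isMaximal_of_surjective _ fun c => ⟨algebraMap ℂ C.R c, z.commutes c⟩
  obtain ⟨k, s, hs, s', hs', hsz, hs'z⟩ := C.free (RingHom.ker z.toRingHom)
    ⟨k0, hk0, s0, hs0, fun hmem => hs0z hmem⟩
  have hsz : z s ≠ 0 := fun h0 => hsz h0
  have hs'z : z s' ≠ 0 := fun h0 => hs'z h0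
  have hsφ := ne_of_NV h hφ hs hsz
  have hs'φ := ne_of_NV h hφ hs' hs'z
  refine ⟨(φ s' * z s) / (z s' * φ s), div_ne_zero (mul_ne_zero hs'φ hsz)
    (mul_ne_zero hs'z hsφ), ?_⟩
  refine algHom_ext_gr (A := C.A) fun j g hg => ?_
  rw [GCone.tact, pact_mem C.A _ _ hg]
  by_cases hgz : z g = 0
  · rw [hgz, mul_zero, h j g hg hgz]
  · have h1 : s' ^ j ∈ C.A (j * (k + 1)) := by
      have := SetLike.pow_mem_graded j hs'
      simpa using this
    have h2 : g * s ^ j ∈ C.A (j * (k + 1)) := by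
      have := SetLike.GradedMul.mul_mem hg (SetLike.pow_mem_graded j hs)
      have e : j + j • k = j * (k + 1) := by simp; ring
      rwa [e] at this
    have h3 := ratio h h1 h2
    rw [map_mul, map_mul, map_pow, map_pow, map_pow, map_pow] at h3
    rw [div_pow, mul_pow, mul_pow, div_mul_eq_mul_div, div_eq_iff
      (mul_ne_zero (pow_ne_zero _ hs'z) (pow_ne_zero _ hsφ))]
    linear_combination h3

end orbit

/-! ### weights -/

section weight

variable (k : HM C →₀ ℝ) (hk : ∀ f, 0 ≤ k f) {s : ℕ} (t : Fin s → C.R) {e : ℕ}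
  (ht : ∀ j, t j ∈ C.A e) (hne : ∃ j, t j ≠ 0) {κ : ℝ} (hκ : 0 ≤ κ)

/-- The number of elements of the families of `kw`. -/
def kwS (N s : ℕ) : Fin (N + 1) → ℕ := Fin.cases (motive := fun _ => ℕ) s fun _ => 1

/-- The families of `kw`. -/
noncomputable def kwG (k : HM C →₀ ℝ) (t : Fin s → C.R) :
    (a : Fin (k.support.card + 1)) → Fin (kwS k.support.card s a) → C.R :=
  Fin.cases (motive := fun a => Fin (kwS k.support.card s a) → C.R) t
    fun i _ => co (k.support.equivFin.symm i).1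

/-- The weight `(∑ |t_j|²)^{-κ} ∏ |f|^{-2 k f}`. -/
noncomputable def kw : RWeight C where
  r := k.support.card + 1
  s := kwS k.support.card s
  g := kwG k t
  d := Fin.cases (motive := fun _ => ℕ) e fun i => HM.deg (k.support.equivFin.symm i).1
  κ := Fin.cases (motive := fun _ => ℝ) κ fun i => k (k.support.equivFin.symm i).1
  mem := Fin.cases ht fun i _ => HM.deg_mem (k.support.equivFin.symm i).1
  nonneg := Fin.cases hκ fun i => hk _
  ne := Fin.cases hne fun i => ⟨(0 : Fin 1), HM.ne (k.support.equivFin.symm i).1⟩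

theorem kw_deg : (kw k hk t ht hne hκ).deg = κ * e + pair k fun f => (HM.deg f : ℝ) := by
  rw [RWeight.deg]
  change ∑ a : Fin (k.support.card + 1), _ = _
  rw [Fin.sum_univ_succ, pair_def]
  congr 1
  rw [← Finset.sum_coe_sort k.support (fun f => k f * (HM.deg f : ℝ))]
  exact Equiv.sum_comp k.support.equivFin.symm
    (fun f : k.support => k f * ((HM.deg (f : HM C) : ℕ) : ℝ))

/-- `∏ |f|^{-2 k f}` with the value `∞` at the zeros of the `f` with `k f > 0`. -/
noncomputable def pw (k : HM C →₀ ℝ) (χ : C.Pt) : ℝ≥0∞ :=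
  ∏ f ∈ k.support, ENNReal.ofReal (‖χ (co f)‖ ^ 2) ^ (-k f)

theorem kw_val (χ : C.Pt) : (kw k hk t ht hne hκ).val χ =
    ENNReal.ofReal (∑ j, ‖χ (t j)‖ ^ 2) ^ (-κ) * pw k χ := by
  rw [RWeight.val]
  change ∏ a : Fin (k.support.card + 1), _ = _
  rw [Fin.prod_univ_succ, pw]
  congr 1
  rw [← Finset.prod_coe_sort k.support
    (fun f => ENNReal.ofReal (‖χ (co f)‖ ^ 2) ^ (-k f))]
  rw [← Equiv.prod_comp k.support.equivFin.symm
    (fun f : k.support => ENNReal.ofReal (‖χ (co f)‖ ^ 2) ^ (-k f))]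
  refine Finset.prod_congr rfl fun i _ => ?_
  change ENNReal.ofReal (∑ j : Fin 1, _) ^ _ = _
  rw [Fin.sum_univ_one]
  rfl

end weight

end Vale.Agent.P271.H244
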