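import Vale.Agent.P271.Zorn.Abs

/-!
P271, block 31 (helper244): the two uses of the global theorem in the chain, in the language of
exponent sets: CEN (the threshold of a saturated weight at the points of its centre) and the first
half of BDEG (near the point, the centre is cut out by elements of bounded degree).
-/

namespace Vale.Agent.P271.H244

open Finsupp Filter Topology Vale.Agent.P271.Zorn

variable {H : Type*} [CommMonoid H] {Y : Type*}

/-- Data near the point at which `D` is the exponent data: `l` is the filter of the points near it,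
`P y` the exponent set at `y`, `ev f y` the value of `f` at `y`; `glob` is the consequence of the
global `L²` theorem: if `∏ |f|^{-2 k f}` is integrable near `y` then there is `g` of bounded degree
with `g y ≠ 0` and `|g|² ∏ |f|^{-2 k f}` integrable near the base point. -/
structure NearData (D : Dat H) (ev : H → Y → ℂ) (P : Y → Set (H →₀ ℝ)) (deg : H → ℕ)
    (l : Filter Y) (M2 : ℝ → ℕ) : Prop where
  near : ∀ k ∈ D.P, ∀ᶠ y in l, k ∈ P y
  unit : ∀ᶠ y in l, ∀ f, ev f y ≠ 0 → ∀ t : ℝ, ∀ k ∈ P y, k + single f t ∈ P y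
  glob : ∀ᶠ y in l, ∀ D0 : ℝ, ∀ k ∈ P y, (∀ f, 0 ≤ k f) → pair k (fun f => (deg f : ℝ)) ≤ D0 →
    ∃ g, deg g = M2 D0 ∧ ev g y ≠ 0 ∧ k - single g 1 ∈ D.P

variable {D : Dat H} {ev : H → Y → ℂ} {P : Y → Set (H →₀ ℝ)} {deg : H → ℕ} {l : Filter Y}
  {M2 : ℝ → ℕ} {v : H → ℝ} {c : ℝ}

/-- **CEN**: at the points `y` of the centre `{v > 0}` near the base point the threshold of `v` is
at most `c`. -/
theorem cen (hN : NearData D ev P deg l M2) (hv : D.Sat v c) :
    ∀ᶠ y in l, (∀ f, 0 < v f → ev f y = 0) → ∀ k ∈ P y, (∀ f, 0 ≤ k f) → pair k v ≤ c := by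
  filter_upwards [hN.glob] with y hy hz k hk hk0
  obtain ⟨g, -, hg, hkg⟩ := hy _ k hk hk0 le_rfl
  have h1 := hv.cancel hkg
  have h2 : v g = 0 := by
    by_contra hne
    exact hg (hz g (lt_of_le_of_ne (hv.nonneg g) (Ne.symm hne)))
  rw [h2, mul_zero, add_zero] at h1
  exact h1

/-- `c ≥ 0` for a saturated weight. -/
theorem sat_nonneg (hv : D.Sat v c) : 0 ≤ c := by
  have := hv.le 0 D.zero_mem fun f => by simp
  rwa [pair_zero] at this

/-- **BDEG**, first half: the complement of the centre near the base point is covered by the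
nonvanishing loci of elements `g` of the fixed degree `M2 (D0 + 1)` with `v g > 0`. -/
theorem bdeg_near (hN : NearData D ev P deg l M2) (hv : D.Sat v c) {kstar : H →₀ ℝ}
    (hk0 : ∀ f, 0 ≤ kstar f) (hmem : ∀ e : ℝ, 0 < e → e < 1 → (1 - e) • kstar ∈ D.P)
    (hkv : pair kstar v = c) {D0 : ℝ} (hD0 : pair kstar (fun f => (deg f : ℝ)) ≤ D0)
    (S : Finset H) (hS : ∀ s ∈ S, 0 < v s) :
    ∀ᶠ y in l, (∃ s ∈ S, ev s y ≠ 0) → ∃ g, deg g = M2 (D0 + 1) ∧ ev g y ≠ 0 ∧ 0 < v g := by
  classical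
  have hc := sat_nonneg hv
  -- the choice of `e`
  obtain ⟨B, hB0, hB⟩ : ∃ B : ℝ, 0 ≤ B ∧ ∀ s ∈ S, (deg s : ℝ) / v s ≤ B := by
    refine ⟨∑ s ∈ S, (deg s : ℝ) / v s, Finset.sum_nonneg fun s hs => ?_, fun s hs => ?_⟩
    · exact div_nonneg (Nat.cast_nonneg _) (hS s hs).le
    · exact Finset.single_le_sum (f := fun s => (deg s : ℝ) / v s)
        (fun s hs => div_nonneg (Nat.cast_nonneg _) (hS s hs).le) hs
  obtain ⟨e, he0, he1, heB⟩ : ∃ e : ℝ, 0 < e ∧ e < 1 ∧ e * (c + 1) * B ≤ 1 := by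
    have h1 : 0 < (c + 1) * B + 2 := by positivity
    refine ⟨1 / ((c + 1) * B + 2), by positivity, ?_, ?_⟩
    · rw [div_lt_one h1]
      have : 0 ≤ (c + 1) * B := by positivity
      linarith
    · rw [div_mul_eq_mul_div, one_mul, div_mul_eq_mul_div, div_le_one h1]
      linarith
  have hdeg0 : 0 ≤ pair kstar (fun f => (deg f : ℝ)) := by
    rw [pair_def]
    exact Finset.sum_nonneg fun f _ => mul_nonneg (hk0 f) (Nat.cast_nonneg _)
  filter_upwards [hN.near _ (hmem e he0 he1), hN.unit, hN.glob] with y h1 h2 h3 hy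
  obtain ⟨s, hs, hsy⟩ := hy
  have hvs := hS s hs
  set t : ℝ := e * (c + 1) / v s with ht
  have ht0 : 0 ≤ t := by positivity
  have h4 : (1 - e) • kstar + single s t ∈ P y := h2 s hsy t _ h1
  have h5 : ∀ f, 0 ≤ ((1 - e) • kstar + single s t) f := by
    intro f
    rw [Finsupp.add_apply, Finsupp.smul_apply, smul_eq_mul]
    have h6 : 0 ≤ single s t f := by
      by_cases hf : f = s
      · subst hf; simp [ht0]
      · rw [single_eq_of_ne hf]
    have h7 : 0 ≤ (1 - e) * kstar f := mul_nonneg (by linarith) (hk0 f)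
    linarith
  have h6 : pair ((1 - e) • kstar + single s t) (fun f => (deg f : ℝ)) ≤ D0 + 1 := by
    rw [pair_add, pair_smul, pair_single]
    have h7 : t * (deg s : ℝ) ≤ 1 := by
      calc t * (deg s : ℝ) = e * (c + 1) * ((deg s : ℝ) / v s) := by
            rw [ht]
            ring
        _ ≤ e * (c + 1) * B := by
            have := hB s hs
            gcongr
        _ ≤ 1 := heB
    have h8 : (1 - e) * pair kstar (fun f => (deg f : ℝ)) ≤
        pair kstar (fun f => (deg f : ℝ)) := by nlinarith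
    linarith
  obtain ⟨g, hgd, hgy, hkg⟩ := h3 (D0 + 1) _ h4 h5 h6
  refine ⟨g, hgd, hgy, ?_⟩
  have h9 := hv.cancel hkg
  rw [pair_add, pair_smul, pair_single, hkv] at h9
  have h10 : t * v s = e * (c + 1) := by
    rw [ht]
    field_simp
  rw [h10] at h9
  nlinarith

end Vale.Agent.P271.H244
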