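import Mathlib

/-!
P271, block 31 (helper244): SUMTYPE.  If `w (∑ |t_j|²)^{-κ}` is integrable, `0 < κ < 1`, then for
almost every `λ` in the unit polydisc `w |∑ λ_j t_j|^{-2κ}` is integrable.
-/

open MeasureTheory Filter Topology Metric
open scoped ENNReal NNReal

namespace Vale.Agent.P271.H244

/-- `|z|^{-2κ}` is integrable on the unit disc of `ℂ` for `κ < 1`. -/
theorem lint_disc {κ : ℝ} (h1 : κ < 1) :
    ∫⁻ z in ball (0 : ℂ) 1, ENNReal.ofReal ‖z‖ ^ (-2 * κ) < ⊤ := by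
  rw [← lintegral_indicator measurableSet_ball, ← Complex.lintegral_comp_polarCoord_symm]
  have hle : ∀ p ∈ polarCoord.target, ENNReal.ofReal p.1 • (ball (0 : ℂ) 1).indicator
      (fun z => ENNReal.ofReal ‖z‖ ^ (-2 * κ)) (Complex.polarCoord.symm p) ≤
      (Set.Ioo (0 : ℝ) 1).indicator (fun r => ENNReal.ofReal (r ^ (1 - 2 * κ))) p.1 * 1 := by
    intro p hp
    rw [polarCoord_target, Set.mem_prod] at hp
    have hp0 : 0 < p.1 := hp.1
    have hn : ‖Complex.polarCoord.symm p‖ = p.1 := by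
      rw [Complex.norm_polarCoord_symm, abs_of_pos hp0]
    by_cases hb : p.1 < 1
    · have hm : Complex.polarCoord.symm p ∈ ball (0 : ℂ) 1 := by
        rw [mem_ball_zero_iff, hn]
        exact hb
      rw [Set.indicator_of_mem hm, Set.indicator_of_mem (show p.1 ∈ Set.Ioo (0 : ℝ) 1 from
        ⟨hp0, hb⟩), hn, mul_one, smul_eq_mul, ENNReal.ofReal_rpow_of_pos hp0,
        ← ENNReal.ofReal_mul hp0.le]
      apply le_of_eq
      congr 1
      have h2 := Real.rpow_add hp0 1 (-2 * κ)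
      rw [Real.rpow_one] at h2
      rw [← h2]
      congr 1
      ring
    · have hm : Complex.polarCoord.symm p ∉ ball (0 : ℂ) 1 := by
        rw [mem_ball_zero_iff, hn]
        exact hb
      rw [Set.indicator_of_notMem hm, smul_zero]
      exact zero_le
  refine lt_of_le_of_lt (setLIntegral_mono' polarCoord.open_target.measurableSet hle) ?_
  rw [polarCoord_target, Measure.volume_eq_prod, ← Measure.prod_restrict,
    lintegral_prod_mul (f := (Set.Ioo (0 : ℝ) 1).indicator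
      (fun r => ENNReal.ofReal (r ^ (1 - 2 * κ)))) (g := fun _ : ℝ => (1 : ℝ≥0∞))]
  · refine ENNReal.mul_lt_top ?_ ?_
    · refine lt_of_le_of_lt (setLIntegral_le_lintegral _ _) ?_
      rw [lintegral_indicator measurableSet_Ioo]
      have h2 : IntervalIntegrable (fun r : ℝ => r ^ (1 - 2 * κ)) volume 0 1 :=
        intervalIntegral.intervalIntegrable_rpow' (by linarith)
      have h3 : IntegrableOn (fun r : ℝ => r ^ (1 - 2 * κ)) (Set.Ioc 0 1) :=
        (intervalIntegrable_iff_integrableOn_Ioc_of_le zero_le_one).1 h2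
      have h4 := (h3.mono_set Set.Ioo_subset_Ioc_self).lintegral_lt_top
      exact h4
    · simp
  · exact (Measurable.indicator (by fun_prop) measurableSet_Ioo).aemeasurable
  · exact aemeasurable_const

/-- One complex variable. -/
theorem lint_affine {κ : ℝ} (h0 : 0 < κ) (h1 : κ < 1) : ∃ C : ℝ≥0∞, C ≠ ⊤ ∧ C ≠ 0 ∧
    ∀ a t : ℂ, ∫⁻ z in ball (0 : ℂ) 1, ENNReal.ofReal ‖z * t + a‖ ^ (-2 * κ) ≤
      C * ENNReal.ofReal ‖t‖ ^ (-2 * κ) := by
  refine ⟨volume (ball (0 : ℂ) 1) +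
    ∫⁻ z in ball (0 : ℂ) 1, ENNReal.ofReal ‖z‖ ^ (-2 * κ), ?_, ?_, fun a t => ?_⟩
  · exact (ENNReal.add_lt_top.2 ⟨measure_ball_lt_top, lint_disc h1⟩).ne
  · have : 0 < volume (ball (0 : ℂ) 1) := measure_ball_pos _ _ one_pos
    exact (lt_of_lt_of_le this le_self_add).ne'
  by_cases ht : t = 0
  · have h2 : ENNReal.ofReal ‖t‖ ^ (-2 * κ) = ⊤ := by
      rw [ht, norm_zero, ENNReal.ofReal_zero]
      exact ENNReal.zero_rpow_of_neg (by linarith)
    rw [h2, ENNReal.mul_top]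
    · exact le_top
    · have : 0 < volume (ball (0 : ℂ) 1) := measure_ball_pos _ _ one_pos
      exact (lt_of_lt_of_le this le_self_add).ne'
  have htn : 0 < ‖t‖ := norm_pos_iff.2 ht
  have h3 : ∀ z : ℂ, ENNReal.ofReal ‖z * t + a‖ ^ (-2 * κ) =
      ENNReal.ofReal ‖t‖ ^ (-2 * κ) * ENNReal.ofReal ‖z + a / t‖ ^ (-2 * κ) := by
    intro z
    have h4 : z * t + a = t * (z + a / t) := by
      field_simp
    rw [h4, norm_mul, ENNReal.ofReal_mul htn.le]
    exact ENNReal.mul_rpow_of_ne_top ENNReal.ofReal_ne_top ENNReal.ofReal_ne_top _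
  simp_rw [h3]
  rw [lintegral_const_mul' _ _ (by
    rw [ENNReal.ofReal_rpow_of_pos htn]
    exact ENNReal.ofReal_ne_top), mul_comm]
  refine mul_le_mul' ?_ le_rfl
  set b := a / t
  have h5 : ∀ z : ℂ, ENNReal.ofReal ‖z + b‖ ^ (-2 * κ) ≤
      1 + (ball (0 : ℂ) 1).indicator (fun z => ENNReal.ofReal ‖z‖ ^ (-2 * κ)) (z + b) := by
    intro z
    by_cases hz : z + b ∈ ball (0 : ℂ) 1
    · rw [Set.indicator_of_mem hz]
      exact le_add_self
    · rw [Set.indicator_of_notMem hz, add_zero]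
      rw [mem_ball_zero_iff, not_lt] at hz
      rw [show (-2 * κ) = -(2 * κ) by ring, ENNReal.rpow_neg]
      refine ENNReal.inv_le_one.2 (ENNReal.one_le_rpow ?_ (by linarith))
      rw [← ENNReal.ofReal_one]
      exact ENNReal.ofReal_le_ofReal hz
  calc ∫⁻ z in ball (0 : ℂ) 1, ENNReal.ofReal ‖z + b‖ ^ (-2 * κ)
      ≤ ∫⁻ z in ball (0 : ℂ) 1, (1 + (ball (0 : ℂ) 1).indicator
          (fun z => ENNReal.ofReal ‖z‖ ^ (-2 * κ)) (z + b)) := lintegral_mono h5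
    _ = volume (ball (0 : ℂ) 1) + ∫⁻ z in ball (0 : ℂ) 1, (ball (0 : ℂ) 1).indicator
          (fun z => ENNReal.ofReal ‖z‖ ^ (-2 * κ)) (z + b) := by
        rw [lintegral_add_left measurable_const]
        simp
    _ ≤ volume (ball (0 : ℂ) 1) + ∫⁻ z, (ball (0 : ℂ) 1).indicator
          (fun z => ENNReal.ofReal ‖z‖ ^ (-2 * κ)) (z + b) := by
        gcongr
        exact Measure.restrict_le_self
    _ = volume (ball (0 : ℂ) 1) + ∫⁻ z, (ball (0 : ℂ) 1).indicator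
          (fun z => ENNReal.ofReal ‖z‖ ^ (-2 * κ)) z := by
        rw [lintegral_add_right_eq_self (fun z => (ball (0 : ℂ) 1).indicator
          (fun z => ENNReal.ofReal ‖z‖ ^ (-2 * κ)) z) b]
    _ = _ := by rw [lintegral_indicator measurableSet_ball]

/-- The measure on the polydisc. -/
noncomputable def pdisc (r : ℕ) : Measure (Fin r → ℂ) :=
  Measure.pi fun _ => volume.restrict (ball (0 : ℂ) 1)

instance (r : ℕ) : IsFiniteMeasure (pdisc r) := by
  have : ∀ _ : Fin r, IsFiniteMeasure ((volume : Measure ℂ).restrict (ball (0 : ℂ) 1)) :=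
    fun _ => ⟨by simp [measure_ball_lt_top]⟩
  unfold pdisc
  infer_instance

/-- Several variables: integral over the coefficients of a linear combination. -/
theorem lint_poly {κ : ℝ} (h0 : 0 < κ) (h1 : κ < 1) (r : ℕ) : ∃ C : ℝ≥0∞, C ≠ ⊤ ∧ C ≠ 0 ∧
    ∀ t : Fin r → ℂ, ∫⁻ l, ENNReal.ofReal ‖∑ j, l j * t j‖ ^ (-2 * κ) ∂(pdisc r) ≤
      C * ENNReal.ofReal (∑ j, ‖t j‖ ^ 2) ^ (-κ) := by
  rcases r with _ | r
  · refine ⟨1, ENNReal.one_ne_top, one_ne_zero, fun t => ?_⟩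
    have : ENNReal.ofReal (∑ j : Fin 0, ‖t j‖ ^ 2) ^ (-κ) = ⊤ := by
      simp only [Finset.univ_eq_empty, Finset.sum_empty, ENNReal.ofReal_zero]
      exact ENNReal.zero_rpow_of_neg (by linarith)
    rw [this, one_mul]
    exact le_top
  obtain ⟨C1, hC1, hC1', hC⟩ := lint_affine h0 h1
  set V : ℝ≥0∞ := pdisc r Set.univ with hV
  have hVt : V ≠ ⊤ := measure_ne_top _ _
  refine ⟨(C1 * V + 1) * (ENNReal.ofReal (r + 1)) ^ κ, ?_, ?_, fun t => ?_⟩
  · refine (ENNReal.mul_lt_top ?_ ?_).ne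
    · exact ENNReal.add_lt_top.2 ⟨ENNReal.mul_lt_top hC1.lt_top hVt.lt_top, ENNReal.one_lt_top⟩
    · exact ENNReal.rpow_lt_top_of_nonneg h0.le ENNReal.ofReal_ne_top
  · refine mul_ne_zero (lt_of_lt_of_le one_pos le_add_self).ne' ?_
    have : (0 : ℝ≥0∞) < ENNReal.ofReal (r + 1) := ENNReal.ofReal_pos.2 (by positivity)
    exact (ENNReal.rpow_pos this ENNReal.ofReal_ne_top).ne'
  obtain ⟨i, -, hi⟩ := Finset.exists_max_image (Finset.univ : Finset (Fin (r + 1)))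
    (fun j => ‖t j‖) Finset.univ_nonempty
  have h2 : ∑ j, ‖t j‖ ^ 2 ≤ (r + 1) * ‖t i‖ ^ 2 := by
    calc ∑ j, ‖t j‖ ^ 2 ≤ ∑ _j : Fin (r + 1), ‖t i‖ ^ 2 :=
          Finset.sum_le_sum fun j _ => pow_le_pow_left₀ (norm_nonneg _) (hi j (Finset.mem_univ j)) 2
      _ = (r + 1) * ‖t i‖ ^ 2 := by
          rw [Finset.sum_const, Finset.card_univ, Fintype.card_fin, nsmul_eq_mul]
          push_cast
          ring
  have h3 : ENNReal.ofReal ‖t i‖ ^ (-2 * κ) ≤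
      ENNReal.ofReal (r + 1) ^ κ * ENNReal.ofReal (∑ j, ‖t j‖ ^ 2) ^ (-κ) := by
    have h4 : (ENNReal.ofReal ((r + 1) * ‖t i‖ ^ 2)) ^ (-κ) ≤
        ENNReal.ofReal (∑ j, ‖t j‖ ^ 2) ^ (-κ) := by
      rw [ENNReal.rpow_neg, ENNReal.rpow_neg]
      exact ENNReal.inv_le_inv.2 (ENNReal.rpow_le_rpow (ENNReal.ofReal_le_ofReal h2) h0.le)
    refine le_trans (le_of_eq ?_) (mul_le_mul' le_rfl h4)
    have hr : (0 : ℝ) < r + 1 := by positivity
    have hr' : ENNReal.ofReal ((r : ℝ) + 1) ≠ 0 := (ENNReal.ofReal_pos.2 hr).ne'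
    rw [ENNReal.ofReal_mul hr.le,
      ENNReal.mul_rpow_of_ne_top ENNReal.ofReal_ne_top ENNReal.ofReal_ne_top,
      ← mul_assoc, ← ENNReal.rpow_add _ _ hr' ENNReal.ofReal_ne_top, add_neg_cancel,
      ENNReal.rpow_zero, one_mul, ENNReal.ofReal_pow (norm_nonneg _), ← ENNReal.rpow_natCast,
      ← ENNReal.rpow_mul]
    congr 1
    push_cast
    ring
  have h5 : ∫⁻ l, ENNReal.ofReal ‖∑ j, l j * t j‖ ^ (-2 * κ) ∂(pdisc (r + 1)) ≤
      C1 * V * ENNReal.ofReal ‖t i‖ ^ (-2 * κ) := by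
    have hmp := measurePreserving_piFinSuccAbove (α := fun _ : Fin (r + 1) => ℂ)
      (fun _ => volume.restrict (ball (0 : ℂ) 1)) i
    have h6 : ∫⁻ l, ENNReal.ofReal ‖∑ j, l j * t j‖ ^ (-2 * κ) ∂(pdisc (r + 1)) =
        ∫⁻ p : ℂ × (Fin r → ℂ), ENNReal.ofReal ‖p.1 * t i +
          ∑ j, p.2 j * t (i.succAbove j)‖ ^ (-2 * κ)
          ∂((volume.restrict (ball (0 : ℂ) 1)).prod (pdisc r)) := by
      have hm : Measurable fun p : ℂ × (Fin r → ℂ) => ENNReal.ofReal ‖p.1 * t i +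
          ∑ j, p.2 j * t (i.succAbove j)‖ ^ (-2 * κ) := by fun_prop
      have h7 := hmp.lintegral_comp hm
      rw [← show (volume.restrict (ball (0 : ℂ) 1)).prod (pdisc r) =
        (volume.restrict (ball (0 : ℂ) 1)).prod (Measure.pi fun _ : Fin r =>
          volume.restrict (ball (0 : ℂ) 1)) from rfl] at h7
      rw [← h7]
      refine lintegral_congr fun l => ?_
      rw [Fin.sum_univ_succAbove (fun j => l j * t j) i]
      rfl
    rw [h6, lintegral_prod_symm _ (by fun_prop)]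
    calc ∫⁻ y, (∫⁻ x in ball (0 : ℂ) 1, ENNReal.ofReal ‖x * t i +
          ∑ j, y j * t (i.succAbove j)‖ ^ (-2 * κ)) ∂(pdisc r)
        ≤ ∫⁻ _y, C1 * ENNReal.ofReal ‖t i‖ ^ (-2 * κ) ∂(pdisc r) :=
          lintegral_mono fun y => hC _ _
      _ = C1 * V * ENNReal.ofReal ‖t i‖ ^ (-2 * κ) := by
          rw [lintegral_const]
          ring
  calc _ ≤ C1 * V * ENNReal.ofReal ‖t i‖ ^ (-2 * κ) := h5
    _ ≤ (C1 * V + 1) * (ENNReal.ofReal (r + 1) ^ κ *
          ENNReal.ofReal (∑ j, ‖t j‖ ^ 2) ^ (-κ)) := mul_le_mul' le_self_add h3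
    _ = _ := by ring

/-- **SUMTYPE** -/
theorem ae_lint_lt_top {X : Type*} [MeasurableSpace X] {μ : Measure X} [SFinite μ] {r : ℕ}
    {w : X → ℝ≥0∞} (hw : AEMeasurable w μ) {t : Fin r → X → ℂ} (ht : ∀ j, AEMeasurable (t j) μ)
    {κ : ℝ} (h0 : 0 < κ) (h1 : κ < 1)
    (h : ∫⁻ x, w x * ENNReal.ofReal (∑ j, ‖t j x‖ ^ 2) ^ (-κ) ∂μ < ⊤) :
    ∀ᵐ l ∂(pdisc r), ∫⁻ x, w x * ENNReal.ofReal ‖∑ j, l j * t j x‖ ^ (-2 * κ) ∂μ < ⊤ := by
  obtain ⟨C, hC, -, hCt⟩ := lint_poly h0 h1 r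
  have hm : AEMeasurable (fun p : (Fin r → ℂ) × X =>
      w p.2 * ENNReal.ofReal ‖∑ j, p.1 j * t j p.2‖ ^ (-2 * κ)) ((pdisc r).prod μ) := by
    refine AEMeasurable.mul hw.comp_snd ?_
    refine AEMeasurable.pow_const ?_ _
    refine AEMeasurable.ennreal_ofReal (AEMeasurable.norm ?_)
    refine Finset.aemeasurable_fun_sum _ fun j _ => ?_
    exact AEMeasurable.mul (by fun_prop) (ht j).comp_snd
  have h2 : ∫⁻ l, ∫⁻ x, w x * ENNReal.ofReal ‖∑ j, l j * t j x‖ ^ (-2 * κ) ∂μ ∂(pdisc r) < ⊤ := by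
    rw [← lintegral_prod _ hm, lintegral_prod_symm _ hm]
    calc ∫⁻ x, (∫⁻ l, w x * ENNReal.ofReal ‖∑ j, l j * t j x‖ ^ (-2 * κ) ∂(pdisc r)) ∂μ
        = ∫⁻ x, (w x * ∫⁻ l, ENNReal.ofReal ‖∑ j, l j * t j x‖ ^ (-2 * κ) ∂(pdisc r)) ∂μ := by
          refine lintegral_congr fun x => ?_
          rw [lintegral_const_mul]
          fun_prop
      _ ≤ ∫⁻ x, w x * (C * ENNReal.ofReal (∑ j, ‖t j x‖ ^ 2) ^ (-κ)) ∂μ :=
          lintegral_mono fun x => mul_le_mul' le_rfl (hCt _)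
      _ = C * ∫⁻ x, w x * ENNReal.ofReal (∑ j, ‖t j x‖ ^ 2) ^ (-κ) ∂μ := by
          rw [← lintegral_const_mul' _ _ hC]
          refine lintegral_congr fun x => ?_
          ring
      _ < ⊤ := ENNReal.mul_lt_top hC.lt_top h
  exact ae_lt_top' hm.lintegral_prod_right' h2.ne

end Vale.Agent.P271.H244
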