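import Vale.Agent.P271.H244.CEv
import Vale.Agent.P271.H244.SumType
import Vale.Agent.P271.H244.Cen

/-!
P271, block 31 (helper244): END.  A weight function `v` with threshold `≤ β` at `z` whose threshold
is approximated by exponent vectors `k ≥ 0` of degree `≤ r + ε`, positive on a linear system `S` whose
common zero set near `z` is the orbit of `z`, gives a generator of `K + M L` at `z` for `M > r`.
-/

namespace Vale.Agent.P271.H244

open Filter Topology Metric Set MeasureTheory Finsupp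
open Vale.Agent.P271.Sch Vale.Agent.P271.H741 Vale.Agent.P271.Zorn Vale.Agent.P271.Inst
open scoped ENNReal Vale.Agent.P271.Inst

variable {n : ℕ} {C : GCone n} {z : C.Pt} {m : ℕ}

/-! ### `wt` and `pw` -/

theorem wt_eq_prod (k : HM C →₀ ℝ) (χ : C.Pt) : wt (fun f χ => χ (co f)) k χ =
    ∏ f ∈ k.support, ENNReal.ofReal (Real.exp (-2 * (k f * Real.log ‖χ (co f)‖))) := by
  rw [wt, lg, pair_def, Finset.mul_sum, Real.exp_sum, ENNReal.ofReal_prod_of_nonneg]
  intro f _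
  positivity

theorem factor_eq {κ a : ℝ} (ha : 0 < a) :
    ENNReal.ofReal (Real.exp (-2 * (κ * Real.log a))) = ENNReal.ofReal (a ^ 2) ^ (-κ) := by
  rw [ENNReal.ofReal_rpow_of_pos (by positivity), Real.rpow_def_of_pos (by positivity),
    Real.log_pow]
  congr 2
  push_cast
  ring

theorem factor_le {κ a : ℝ} (hκ : 0 < κ) (ha : 0 ≤ a) :
    ENNReal.ofReal (Real.exp (-2 * (κ * Real.log a))) ≤ ENNReal.ofReal (a ^ 2) ^ (-κ) := by
  rcases ha.lt_or_eq with h | h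
  · exact (factor_eq h).le
  · rw [← h]
    simp [ENNReal.zero_rpow_of_neg (neg_lt_zero.2 hκ)]

theorem wt_le_pw {k : HM C →₀ ℝ} (hk : ∀ f, 0 ≤ k f) (χ : C.Pt) :
    wt (fun f χ => χ (co f)) k χ ≤ pw k χ := by
  rw [wt_eq_prod, pw]
  refine Finset.prod_le_prod' fun f hf => factor_le ?_ (norm_nonneg _)
  exact lt_of_le_of_ne (hk f) (Ne.symm (mem_support_iff.1 hf))

theorem wt_eq_pw {k : HM C →₀ ℝ} {χ : C.Pt} (h : ∀ f ∈ k.support, χ (co f) ≠ 0) :
    wt (fun f χ => χ (co f)) k χ = pw k χ := by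
  rw [wt_eq_prod, pw]
  exact Finset.prod_congr rfl fun f hf => factor_eq (norm_pos_iff.2 (h f hf))

theorem LI_iff {g : (Fin m → ℂ) → ℝ≥0∞} : LI volume (𝓝 0) g ↔ LInt (0 : Fin m → ℂ) g := Iff.rfl

theorem ae_ne (c : Chart z m) (s : Finset (HM C)) :
    ∀ᶠ x in 𝓝 (0 : Fin m → ℂ) ⊓ ae volume, ∀ f ∈ s, c.ψ x (co f) ≠ 0 :=
  (Filter.eventually_all_finset _).2 fun f _ => (isEv_chart c).ne f

theorem intAt_pw (c : Chart z m) {k : HM C →₀ ℝ} (h : k ∈ ES m co z) :
    IntAt m z (pw k) := by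
  rw [c.intAt_iff, ← LI_iff]
  have h1 : LI volume (𝓝 (0 : Fin m → ℂ)) fun x => wt (fun f χ => χ (co f)) k (c.ψ x) :=
    c.intAt_iff.1 h
  refine LI.mono (bas 0) ?_ h1
  filter_upwards [ae_ne c k.support] with x hx
  rw [wt_eq_pw hx]

variable {k : HM C →₀ ℝ} {hk : ∀ f, 0 ≤ k f} {s : ℕ} {t : Fin s → C.R} {e : ℕ}
  {ht : ∀ j, t j ∈ C.A e} {hne : ∃ j, t j ≠ 0} {κ : ℝ} {hκ : 0 ≤ κ}

/-- Integrability at the points where `k` is an exponent and some `t_j` does not vanish. -/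
theorem intAt_kw_of_ne (c : Chart z m) (h : k ∈ ES m co z) (hz : ∃ j, z (t j) ≠ 0) :
    IntAt m z (kw k hk t ht hne hκ).val := by
  obtain ⟨j, hj⟩ := hz
  have h1 := intAt_pw c h
  rw [c.intAt_iff] at h1 ⊢
  have hb : 0 < ‖z (t j)‖ / 2 := by positivity
  set b : ℝ := ‖z (t j)‖ / 2 with hbdef
  have h2 := h1.const_mul (C := ENNReal.ofReal (b ^ 2) ^ (-κ))
    (ENNReal.rpow_ne_top_of_ne_zero (by positivity) ENNReal.ofReal_ne_top)
  refine h2.mono ?_
  have h3 : ContinuousAt (fun x => ‖c.ψ x (t j)‖) 0 := (c.holo _ 0 c.mem0).continuousAt.norm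
  have h4 : ∀ᶠ x in 𝓝 (0 : Fin m → ℂ), b < ‖c.ψ x (t j)‖ := by
    refine h3.tendsto.eventually_const_lt ?_
    rw [c.zero, hbdef]
    linarith [norm_pos_iff.2 hj]
  filter_upwards [h4] with x hx
  rw [kw_val]
  refine mul_le_mul_left ?_ _
  rw [ENNReal.rpow_neg, ENNReal.rpow_neg, ENNReal.inv_le_inv]
  refine ENNReal.rpow_le_rpow (ENNReal.ofReal_le_ofReal ?_) hκ
  calc b ^ 2 ≤ ‖c.ψ x (t j)‖ ^ 2 := by gcongr
    _ ≤ ∑ j, ‖c.ψ x (t j)‖ ^ 2 :=
      Finset.single_le_sum (f := fun j => ‖c.ψ x (t j)‖ ^ 2) (fun _ _ => by positivity)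
        (Finset.mem_univ j)

/-- Almost every combination of the `t_j` is not zero. -/
theorem ae_comb_ne (t : Fin s → C.R) (hne : ∃ j, t j ≠ 0) :
    ∀ᵐ l ∂(pdisc s), ∑ j, l j • t j ≠ 0 := by
  have h1 : pdisc s ≪ volume := by
    rw [pdisc, ← Measure.restrict_pi_pi]
    exact Measure.absolutelyContinuous_of_le Measure.restrict_le_self
  refine h1.ae_le (ae_iff.2 ?_)
  let L : (Fin s → ℂ) →ₗ[ℂ] C.R := Fintype.linearCombination ℂ t
  have hL : ∀ l, L l = ∑ j, l j • t j := fun l => Fintype.linearCombination_apply ℂ t l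
  have h2 : (LinearMap.ker L).restrictScalars ℝ ≠ ⊤ := by
    intro htop
    obtain ⟨j, hj⟩ := hne
    have h3 : (Pi.single j (1 : ℂ) : Fin s → ℂ) ∈ (LinearMap.ker L).restrictScalars ℝ := by
      rw [htop]
      trivial
    have h4 : L (Pi.single j 1) = 0 := h3
    rw [hL] at h4
    rw [Finset.sum_eq_single j] at h4
    · rw [Pi.single_eq_same, one_smul] at h4
      exact hj h4
    · intro i _ hij
      rw [Pi.single_eq_of_ne hij, zero_smul]
    · intro h
      exact absurd (Finset.mem_univ j) h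
  have h3 := Measure.addHaar_submodule (volume : Measure (Fin s → ℂ))
    ((LinearMap.ker L).restrictScalars ℝ) h2
  refine measure_mono_null ?_ h3
  intro l hl
  have hl' : ∑ j, l j • t j = 0 := not_not.1 hl
  change L l = 0
  rw [hL, hl']

instance pdisc_neBot (s : ℕ) : (ae (pdisc s)).NeBot := by
  rw [ae_neBot]
  intro h
  have h1 : pdisc s univ = 0 := by
    rw [h]
    rfl
  rw [pdisc, Measure.pi_univ] at h1
  rw [Finset.prod_eq_zero_iff] at h1
  obtain ⟨i, -, hi⟩ := h1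
  rw [Measure.restrict_apply_univ] at hi
  exact (measure_ball_pos volume (0 : ℂ) one_pos).ne' hi

/-- SUMTYPE for the weights. -/
theorem exists_comb (c : Chart z m) (hκ0 : 0 < κ) (hκ1 : κ < 1)
    (h : IntAt m z (kw k hk t ht hne hκ).val) :
    ∃ T : HM C, HM.deg T = e ∧ co T ∈ Submodule.span ℂ (Set.range t) ∧
      k + single T κ ∈ ES m co z := by
  rw [c.intAt_iff] at h
  obtain ⟨ε, hε, hερ, hI⟩ := h.exists_ball c.ρ_pos
  have hcont : ∀ f : C.R, AEMeasurable (fun x => c.ψ x f)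
      ((volume : Measure (Fin m → ℂ)).restrict (ball 0 ε)) := fun f =>
    ContinuousOn.aemeasurable (((c.holo f).continuousOn).mono (ball_subset_ball hερ))
      measurableSet_ball
  have hw : AEMeasurable (fun x => pw k (c.ψ x))
      ((volume : Measure (Fin m → ℂ)).restrict (ball 0 ε)) := by
    unfold pw
    refine Finset.aemeasurable_fun_prod _ fun f _ => ?_
    exact (((hcont (co f)).norm.pow_const 2).ennreal_ofReal).pow_const _
  have h1 := ae_lint_lt_top (μ := (volume : Measure (Fin m → ℂ)).restrict (ball 0 ε))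
    (w := fun x => pw k (c.ψ x)) hw (t := fun j x => c.ψ x (t j)) (fun j => hcont _) hκ0 hκ1 (by
      refine lt_of_le_of_lt (lintegral_mono fun x => ?_) hI
      rw [kw_val, mul_comm])
  obtain ⟨l, hl1, hl2⟩ := (h1.and (ae_comb_ne t hne)).exists
  have hmem : ∑ j, l j • t j ∈ C.A e :=
    Submodule.sum_mem (C.A e) fun j _ => Submodule.smul_mem (C.A e) _ (ht j)
  refine ⟨⟨∑ j, l j • t j, mem_HM.2 ⟨hl2, e, hmem⟩⟩, HM.deg_eq _ hmem, ?_, ?_⟩
  · change ∑ j, l j • t j ∈ Submodule.span ℂ (Set.range t)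
    exact Submodule.sum_mem (Submodule.span ℂ (Set.range t)) fun j _ =>
      Submodule.smul_mem (Submodule.span ℂ (Set.range t)) _
        (Submodule.subset_span (Set.mem_range_self j))
  · set T : HM C := ⟨∑ j, l j • t j, mem_HM.2 ⟨hl2, e, hmem⟩⟩ with hT
    have hTx : ∀ χ : C.Pt, χ (co T) = ∑ j, l j * χ (t j) := by
      intro χ
      change χ (∑ j, l j • t j) = _
      rw [map_sum]
      exact Finset.sum_congr rfl fun j _ => by rw [map_smul, smul_eq_mul]
    refine c.intAt_iff.2 ⟨ball 0 ε, ball_mem_nhds 0 hε, lt_of_le_of_lt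
      (lintegral_mono fun x => ?_) hl1⟩
    have h2 : wt (fun (f : HM C) (χ : C.Pt) => χ (co f)) (k + single T κ) (c.ψ x) =
        wt (fun (f : HM C) (χ : C.Pt) => χ (co f)) k (c.ψ x) *
          ENNReal.ofReal (Real.exp (-2 * (κ * Real.log ‖c.ψ x (co T)‖))) := by
      unfold wt lg
      rw [Zorn.pair_add, Zorn.pair_single, ← ENNReal.ofReal_mul (Real.exp_pos _).le, ← Real.exp_add]
      congr 2
      ring
    rw [h2]
    refine mul_le_mul' (wt_le_pw hk _) ((factor_le hκ0 (norm_nonneg _)).trans (le_of_eq ?_))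
    rw [hTx, ENNReal.ofReal_pow (norm_nonneg _), ← ENNReal.rpow_natCast, ← ENNReal.rpow_mul]
    congr 1
    push_cast
    ring

/-- **END** -/
theorem end_gen (hG : GlobEnd) {M : ℕ} {r β : ℝ} (hz : GCone.NV z) (c : Chart z (n + 1))
    {v : HM C → ℝ} (hle : ∀ k ∈ ES (n + 1) co z, (∀ f : HM C, 0 ≤ k f) → pair k v ≤ β)
    (happ : ∀ ε : ℝ, 0 < ε → ∃ k ∈ ES (n + 1) co z, (∀ f : HM C, 0 ≤ k f) ∧ β - ε ≤ pair k v ∧
      pair k (fun f => (HM.deg f : ℝ)) ≤ r + ε)
    (hr : r < M) {s : ℕ} {t : Fin s → C.R} {e : ℕ} (ht : ∀ j, t j ∈ C.A e) (hne : ∃ j, t j ≠ 0)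
    {v0 : ℝ} (hv0 : 0 < v0)
    (htv : ∀ f : HM C, co f ∈ Submodule.span ℂ (Set.range t) → v0 ≤ v f)
    (hiso : ∀ᶠ φ in 𝓝 z, (∀ j, φ (t j) = 0) → ∃ τ : ℂ, τ ≠ 0 ∧ GCone.tact τ z = φ) :
    GCone.Gen M z := by
  have hMr : 0 < (M : ℝ) - r := by linarith
  obtain ⟨κ, hκ0, hκ1, hκe⟩ : ∃ κ : ℝ, 0 < κ ∧ κ < 1 ∧ κ * e ≤ (M - r) / 3 := by
    refine ⟨min (1 / 2) ((M - r) / (3 * (e + 1))), by positivity,
      (min_le_left _ _).trans_lt (by norm_num), ?_⟩
    have h1 : min (1 / 2) ((M - r) / (3 * (e + 1))) * (e : ℝ) ≤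
        (M - r) / (3 * (e + 1)) * (e + 1) :=
      mul_le_mul (min_le_right _ _) (by linarith) (by positivity) (by positivity)
    refine h1.trans (le_of_eq ?_)
    field_simp
  obtain ⟨ε, hε0, hεv, hεM⟩ : ∃ ε : ℝ, 0 < ε ∧ ε < κ * v0 ∧ ε ≤ (M - r) / 3 := by
    refine ⟨min (κ * v0 / 2) ((M - r) / 3), by positivity,
      (min_le_left _ _).trans_lt (half_lt_self (by positivity)), min_le_right _ _⟩
  obtain ⟨k, hkz, hk, hkv, hkd⟩ := happ ε hε0
  refine hG n C M z hz (kw k hk t ht hne hκ0.le) ?_ ?_ ?_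
  · rw [kw_deg]
    linarith
  · intro hI
    obtain ⟨T, -, hTS, hTz⟩ := exists_comb c hκ0 hκ1 hI
    have h1 := hle _ hTz fun f => by
      classical
      rw [Finsupp.add_apply, Finsupp.single_apply]
      split_ifs
      · linarith [hk f]
      · linarith [hk f]
    rw [Zorn.pair_add, Zorn.pair_single] at h1
    have h2 : κ * v0 ≤ κ * v T := mul_le_mul_of_nonneg_left (htv T hTS) hκ0.le
    linarith
  · have h1 := ((eventually_mem_ES c hkz).and hiso).and (near_chart c)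
    obtain ⟨F, δ, hδ, hF⟩ := mem_nhds_iff_finset.1 h1
    refine ⟨F, δ, hδ, fun φ hφ hτ => ?_⟩
    obtain ⟨⟨h2, h3⟩, ⟨c'⟩⟩ := hF φ hφ
    refine intAt_kw_of_ne c' h2 ?_
    by_contra hcon
    push Not at hcon
    obtain ⟨τ, h4, h5⟩ := h3 hcon
    exact hτ τ h4 h5

end Vale.Agent.P271.H244
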