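import Vale.Agent.P271.H244.End
import Vale.Agent.P271.H84.OfSat

/-!
P271, block 31 (helper244): END for a saturated weight function centred at the point.
-/

namespace Vale.Agent.P271.H244

open Filter Topology Metric Set MeasureTheory Finsupp
open Vale.Agent.P271.Sch Vale.Agent.P271.H741 Vale.Agent.P271.Zorn Vale.Agent.P271.Inst
open scoped ENNReal Vale.Agent.P271.Inst

variable {n : ℕ} {C : GCone n} {z : C.Pt}

/-- In all large degrees there are homogeneous elements which do not vanish at `z`. -/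
theorem exists_ne_deg (hz : GCone.NV z) : ∃ N0 : ℕ, ∀ N, N0 ≤ N → ∃ h ∈ C.A N, z h ≠ 0 := by
  obtain ⟨k0, hk0, s0, hs0, hs0z⟩ := hz
  have hmax : (RingHom.ker z.toRingHom).IsMaximal :=
    RingHom.ker_isMaximal_of_surjective _ fun c => ⟨algebraMap ℂ C.R c, z.commutes c⟩
  obtain ⟨k, s, hs, s', hs', hsz, hs'z⟩ := C.free (RingHom.ker z.toRingHom)
    ⟨k0, hk0, s0, hs0, fun hmem => hs0z hmem⟩
  have hsz : z s ≠ 0 := fun h0 => hsz h0
  have hs'z : z s' ≠ 0 := fun h0 => hs'z h0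
  refine ⟨k * k, fun N hN => ?_⟩
  obtain ⟨a, b, hab⟩ : ∃ a b : ℕ, a * k + b * (k + 1) = N := by
    rcases Nat.eq_zero_or_pos k with hk | hk
    · exact ⟨0, N, by rw [hk]; ring⟩
    · have h1 : N % k < k := Nat.mod_lt _ hk
      have h2 : k ≤ N / k := (Nat.le_div_iff_mul_le hk).2 hN
      have h3 : k * (N / k) + N % k = N := Nat.div_add_mod N k
      obtain ⟨q, hq⟩ : ∃ q, N / k = N % k + q := ⟨N / k - N % k, by omega⟩
      refine ⟨q, N % k, ?_⟩
      rw [hq] at h3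
      rw [← h3]
      have h4 : (k * (N % k + q) + N % k) % k = N % k := by rw [h3]
      rw [h4]
      ring
  refine ⟨s ^ a * s' ^ b, ?_, ?_⟩
  · have h1 := SetLike.GradedMul.mul_mem (SetLike.pow_mem_graded a hs)
      (SetLike.pow_mem_graded b hs')
    rw [smul_eq_mul, smul_eq_mul, hab] at h1
    exact h1
  · rw [map_mul, map_pow, map_pow]
    exact mul_ne_zero (pow_ne_zero _ hsz) (pow_ne_zero _ hs'z)

/-- The homogeneous elements vanishing at `z`. -/
def hz0 (z : C.Pt) : Set C.R := {g | (∃ j, g ∈ C.A j) ∧ z g = 0}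

theorem eventually_NV (hz : GCone.NV z) : ∀ᶠ φ in 𝓝 z, GCone.NV (C := C) φ := by
  obtain ⟨k, hk, s, hs, hsz⟩ := hz
  exact (eventually_ne hsz).mono fun φ hφ => ⟨k, hk, s, hs, hφ⟩

/-- Finitely many homogeneous elements cut out the orbit of `z`. -/
theorem exists_fin (hz : GCone.NV z) : ∃ G : Finset C.R, (G : Set C.R) ⊆ hz0 z ∧
    Ideal.span (G : Set C.R) = Ideal.span (hz0 z) ∧
    ∀ φ : C.Pt, GCone.NV φ → (∀ g ∈ G, φ g = 0) → ∃ τ : ℂ, τ ≠ 0 ∧ GCone.tact τ z = φ := by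
  obtain ⟨G, hG, hGs⟩ := (Submodule.fg_span_iff_fg_span_finset_subset (R := C.R) (hz0 z)).1
    (IsNoetherian.noetherian (Ideal.span (hz0 z)))
  refine ⟨G, hG, hGs.symm, fun φ hφ h0 => exists_tact hz hφ fun j g hg hgz => ?_⟩
  have h1 : g ∈ Ideal.span (G : Set C.R) := by
    have h2 : g ∈ Submodule.span C.R (hz0 z) := Submodule.subset_span ⟨⟨j, hg⟩, hgz⟩
    rw [hGs] at h2
    exact h2
  have h2 : Ideal.span (G : Set C.R) ≤ RingHom.ker φ := Ideal.span_le.2 fun x hx => h0 x hx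
  exact h2 h1

/-- A set which has, up to elements nonvanishing at `z`, powers of all the homogeneous elements
vanishing at `z`, cuts out the orbit of `z` near `z`. -/
theorem iso_of_alg (hz : GCone.NV z) {S : Set C.R}
    (h : ∀ j, ∀ g ∈ C.A j, z g = 0 → ∃ (N : ℕ) (u : C.R), z u ≠ 0 ∧ u * g ^ N ∈ Ideal.span S) :
    ∀ᶠ φ in 𝓝 z, (∀ t ∈ S, φ t = 0) → ∃ τ : ℂ, τ ≠ 0 ∧ GCone.tact τ z = φ := by
  obtain ⟨G, hG, -, hGφ⟩ := exists_fin hz
  have h1 : ∀ g ∈ G, ∀ᶠ φ in 𝓝 z, (∀ t ∈ S, φ t = 0) → φ g = 0 := by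
    intro g hg
    obtain ⟨⟨j, hj⟩, hgz⟩ := hG hg
    obtain ⟨N, u, hu, hmem⟩ := h j g hj hgz
    filter_upwards [eventually_ne hu] with φ hφ hS
    have h2 : Ideal.span S ≤ RingHom.ker φ := Ideal.span_le.2 fun x hx => hS x hx
    have h3 : φ (u * g ^ N) = 0 := h2 hmem
    rw [map_mul, map_pow] at h3
    exact eq_zero_of_pow_eq_zero ((mul_eq_zero.1 h3).resolve_left hφ)
  filter_upwards [(Filter.eventually_all_finset G).2 h1, eventually_NV hz] with φ h2 h3 h4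
  exact hGφ φ h3 fun g hg => h2 g hg h4

/-- **END**, for a saturated weight function centred at `z`. -/
theorem end_sat (hG : GlobEnd) {M : ℕ} {r β : ℝ} (hz : GCone.NV z) (c : Chart z (n + 1))
    {D : Dat (HM C)} (hDP : D.P = ES (n + 1) co z)
    (hDS : ∀ f g s : HM C, SumRel f g s → D.Sum f g s)
    {v : HM C → ℝ} (hv : D.Sat v β) (hpos : ∀ f : HM C, z (co f) = 0 → 0 < v f)
    (hbot : ∃ f : HM C, z (co f) = 0)
    (happ : ∀ ε : ℝ, 0 < ε → ∃ k ∈ D.P, (∀ f : HM C, 0 ≤ k f) ∧ β - ε ≤ pair k v ∧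
      pair k (fun f => (HM.deg f : ℝ)) ≤ r + ε)
    (hr : r < M) : GCone.Gen M z := by
  classical
  have hV := H84.hval_of_sat hDS hv
  obtain ⟨v0, hv0, hδ⟩ := hV.rval.exists_delta
  obtain ⟨N0, hN0⟩ := exists_ne_deg hz
  obtain ⟨G, hGz, hGs, hGφ⟩ := exists_fin hz
  -- degrees of the generators
  have hdeg : ∀ g : G, ∃ j, (g : C.R) ∈ C.A j := fun g => (hGz g.2).1
  choose dg hdg using hdeg
  obtain ⟨e, he⟩ : ∃ e : ℕ, ∀ g : G, dg g + N0 ≤ e :=
    ⟨∑ g : G, (dg g + N0), fun g => Finset.single_le_sum (f := fun g : G => dg g + N0)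
      (fun _ _ => Nat.zero_le _) (Finset.mem_univ g)⟩
  have hex : ∀ g : G, ∃ u ∈ C.A (e - dg g), z u ≠ 0 := fun g => hN0 _ (by have := he g; omega)
  choose u huA huz using hex
  have htA : ∀ g : G, u g * (g : C.R) ∈ C.A e := by
    intro g
    have h1 := SetLike.GradedMul.mul_mem (huA g) (hdg g)
    have h2 : e - dg g + dg g = e := by have := he g; omega
    rwa [h2] at h1
  let en := (Fintype.equivFin G).symm
  let t : Fin (Fintype.card G) → C.R := fun i => u (en i) * (en i : C.R)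
  have hu0 : ∀ g : G, u g ≠ 0 := fun g h0 => huz g (by rw [h0, map_zero])
  have hP : ∀ i, t i ∈ hV.rval.b v0 := by
    intro i
    refine hδ _ (hV.rval.mem_P.2 fun h0 => ?_)
    have hm : t i ∈ HM C := mem_HM.2 ⟨h0, e, htA _⟩
    have h1 := H84.ext_coe hV ⟨t i, hm⟩
    change 0 < hV.ext (co ⟨t i, hm⟩)
    rw [h1]
    refine hpos _ ?_
    change z (u (en i) * (en i : C.R)) = 0
    rw [map_mul, (hGz (en i).2).2, mul_zero]
  refine end_gen (t := t) (e := e) (v0 := v0) (v := v) (β := β) (r := r) hG hz c ?_ ?_ hr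
    (fun i => htA _) ?_ hv0 ?_ ?_
  · rw [← hDP]
    exact hv.le
  · rw [← hDP]
    exact happ
  · obtain ⟨f, hf⟩ := hbot
    by_contra hcon
    push Not at hcon
    have h1 : ∀ g ∈ G, g = 0 := by
      intro g hg
      have h2 := hcon (en.symm ⟨g, hg⟩)
      change u (en (en.symm ⟨g, hg⟩)) * ((en (en.symm ⟨g, hg⟩) : G) : C.R) = 0 at h2
      rw [Equiv.apply_symm_apply] at h2
      exact (mul_eq_zero.1 h2).resolve_left (hu0 _)
    have h2 : co f ∈ Ideal.span (G : Set C.R) := by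
      rw [hGs]
      exact Ideal.subset_span ⟨⟨_, HM.deg_mem f⟩, hf⟩
    have h3 : Ideal.span (G : Set C.R) ≤ ⊥ := Ideal.span_le.2 fun x hx => h1 x hx
    exact HM.ne f (h3 h2)
  · intro f hf
    have h1 : Submodule.span ℂ (Set.range t) ≤ (hV.rval.b v0).restrictScalars ℂ := by
      rw [Submodule.span_le]
      rintro _ ⟨i, rfl⟩
      exact hP i
    exact (H84.mem_b_coe hV v0 f).1 (h1 hf)
  · have h1 : ∀ g : G, ∀ᶠ φ in 𝓝 z, φ (u g) ≠ 0 := fun g => eventually_ne (huz g)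
    filter_upwards [Filter.eventually_all.2 h1, eventually_NV hz] with φ h2 h3 h4
    refine hGφ φ h3 fun g hg => ?_
    have h5 := h4 (en.symm ⟨g, hg⟩)
    change φ (u (en (en.symm ⟨g, hg⟩)) * ((en (en.symm ⟨g, hg⟩) : G) : C.R)) = 0 at h5
    rw [Equiv.apply_symm_apply, map_mul] at h5
    exact (mul_eq_zero.1 h5).resolve_left (h2 _)

/-- The approximating exponent vectors from a limit vector `kstar`. -/
theorem app_of_kstar {P : Set (HM C →₀ ℝ)} {v : HM C → ℝ} {r β : ℝ} {kstar : HM C →₀ ℝ}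
    (hk0 : ∀ f, 0 ≤ kstar f) (hmem : ∀ e : ℝ, 0 < e → e < 1 → (1 - e) • kstar ∈ P)
    (hkv : pair kstar v = β) (hβ : 0 ≤ β) (hkd : pair kstar (fun f => (HM.deg f : ℝ)) ≤ r) :
    ∀ ε : ℝ, 0 < ε → ∃ k ∈ P, (∀ f : HM C, 0 ≤ k f) ∧ β - ε ≤ pair k v ∧
      pair k (fun f => (HM.deg f : ℝ)) ≤ r + ε := by
  intro ε hε
  have hd0 : 0 ≤ pair kstar (fun f => (HM.deg f : ℝ)) := by
    rw [pair_def]
    exact Finset.sum_nonneg fun f _ => mul_nonneg (hk0 f) (Nat.cast_nonneg _)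
  obtain ⟨e, he0, he1, heβ⟩ : ∃ e : ℝ, 0 < e ∧ e < 1 ∧ e * β ≤ ε := by
    refine ⟨min (1 / 2) (ε / (β + 1)), by positivity,
      (min_le_left _ _).trans_lt (by norm_num), ?_⟩
    calc min (1 / 2) (ε / (β + 1)) * β ≤ ε / (β + 1) * (β + 1) :=
          mul_le_mul (min_le_right _ _) (by linarith) hβ (by positivity)
      _ = ε := by field_simp
  refine ⟨(1 - e) • kstar, hmem e he0 he1, fun f => ?_, ?_, ?_⟩
  · rw [Finsupp.smul_apply, smul_eq_mul]
    exact mul_nonneg (by linarith) (hk0 f)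
  · rw [pair_smul, hkv]
    linarith
  · rw [pair_smul]
    nlinarith

end Vale.Agent.P271.H244
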