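import Vale.Agent.P271.H244.End
import Vale.Agent.P271.H244.BDeg

/-!
P271, block 31 (helper244): the data `NearData` of CEN and BDEG at the points of a graded cone, from
the global generation `GlobGen`.
-/

namespace Vale.Agent.P271.H244

open Filter Topology Metric Set MeasureTheory Finsupp
open Vale.Agent.P271.Sch Vale.Agent.P271.H741 Vale.Agent.P271.Zorn Vale.Agent.P271.Inst
open scoped ENNReal Vale.Agent.P271.Inst

variable {n : ℕ} {C : GCone n} {z : C.Pt}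

/-- The weight `∏ |f|^{-2 k f}`. -/
noncomputable def kw0 (k : HM C →₀ ℝ) (hk : ∀ f, 0 ≤ k f) : RWeight C :=
  kw k hk (s := 1) (e := 0) (κ := 0) (fun _ => 1) (fun _ => SetLike.GradedOne.one_mem)
    ⟨0, one_ne_zero⟩ le_rfl

theorem kw0_deg (k : HM C →₀ ℝ) (hk : ∀ f, 0 ≤ k f) :
    (kw0 k hk).deg = pair k fun f => (HM.deg f : ℝ) := by
  rw [kw0, kw_deg, zero_mul, zero_add]

theorem kw0_val (k : HM C →₀ ℝ) (hk : ∀ f, 0 ≤ k f) (χ : C.Pt) : (kw0 k hk).val χ = pw k χ := by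
  rw [kw0, kw_val, neg_zero, ENNReal.rpow_zero, one_mul]

/-- **GLOB** for exponent vectors: if `∏ |f|^{-2 k f}` is integrable near `y`, `k ≥ 0` has degree
`≤ D0`, then there is `g` of degree `M`, not vanishing at `y`, such that `|g|² ∏ |f|^{-2 k f}` is
integrable near all points different from the vertex. -/
theorem glob_ES (hG : GlobGen) (hn : 1 ≤ n) (C : GCone n) (D0 : ℝ) : ∃ M : ℕ, ∀ k : HM C →₀ ℝ, (∀ f, 0 ≤ k f) →
    pair k (fun f => (HM.deg f : ℝ)) ≤ D0 → ∀ y : C.Pt, GCone.NV y → Nonempty (Chart y (n + 1)) →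
      k ∈ ES (n + 1) co y → ∃ g : HM C, HM.deg g = M ∧ y (co g) ≠ 0 ∧
        ∀ y' : C.Pt, GCone.NV y' → Nonempty (Chart y' (n + 1)) →
          k - single g 1 ∈ ES (n + 1) co y' := by
  obtain ⟨M, hM⟩ := hG n hn C D0
  refine ⟨M, fun k hk hkd y hy ⟨cy⟩ hky => ?_⟩
  obtain ⟨g, hgM, hgy, hg⟩ := hM (kw0 k hk) (by rw [kw0_deg]; exact hkd) y hy (by
    have h1 : (kw0 k hk).val = pw k := funext fun χ => kw0_val k hk χ
    rw [h1]
    exact intAt_pw cy hky)
  have hg0 : g ≠ 0 := fun h0 => hgy (by rw [h0, map_zero])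
  refine ⟨⟨g, mem_HM.2 ⟨hg0, M, hgM⟩⟩, HM.deg_eq _ hgM, hgy, fun y' hy' ⟨c⟩ => ?_⟩
  have h1 := c.intAt_iff.1 (hg y' hy')
  refine c.intAt_iff.2 (LI.mono (bas 0) ?_ h1)
  filter_upwards [ae_ne c {⟨g, mem_HM.2 ⟨hg0, M, hgM⟩⟩}] with x hx
  have hx' : c.ψ x g ≠ 0 := hx _ (Finset.mem_singleton_self _)
  have h2 : wt (fun (f : HM C) (χ : C.Pt) => χ (co f))
      (k - single (⟨g, mem_HM.2 ⟨hg0, M, hgM⟩⟩ : HM C) 1) (c.ψ x) =
      ENNReal.ofReal (‖c.ψ x g‖ ^ 2) *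
        wt (fun (f : HM C) (χ : C.Pt) => χ (co f)) k (c.ψ x) := by
    unfold wt lg
    rw [Zorn.pair_sub, Zorn.pair_single, ← ENNReal.ofReal_mul (by positivity)]
    congr 1
    have h3 : ‖c.ψ x g‖ ^ 2 = Real.exp (2 * Real.log ‖c.ψ x g‖) := by
      have h4 : 0 < ‖c.ψ x g‖ := norm_pos_iff.2 hx'
      rw [two_mul, Real.exp_add, Real.exp_log h4, sq]
    rw [h3, ← Real.exp_add]
    congr 1
    change -2 * (_ - 1 * Real.log ‖c.ψ x g‖) = _
    ring
  rw [h2, kw0_val]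
  exact mul_le_mul' le_rfl (wt_le_pw hk _)

/-- The degree bound of `GlobGen`. -/
noncomputable def gdeg (hG : GlobGen) (hn : 1 ≤ n) (C : GCone n) (D0 : ℝ) : ℕ :=
  (glob_ES hG hn C D0).choose

/-- CEN and BDEG apply to the exponent data at `z`. -/
theorem nearData (hG : GlobGen) (hn : 1 ≤ n) (hz : GCone.NV z) (c : Chart z (n + 1)) {D : Dat (HM C)}
    (hDP : D.P = ES (n + 1) co z) :
    NearData D (fun (f : HM C) (y : C.Pt) => y (co f)) (fun y => ES (n + 1) co y) HM.deg (𝓝 z)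
      (gdeg hG hn C) where
  near k hk := by
    rw [hDP] at hk
    exact eventually_mem_ES c hk
  unit := by
    filter_upwards [near_chart c] with y hy f hf t k hk
    obtain ⟨cy⟩ := hy
    exact unit_ES cy hf hk t
  glob := by
    have hNV : ∀ᶠ y in 𝓝 z, GCone.NV (C := C) y := by
      obtain ⟨k, hk, s, hs, hsz⟩ := hz
      exact (eventually_ne hsz).mono fun φ hφ => ⟨k, hk, s, hs, hφ⟩
    filter_upwards [near_chart c, hNV] with y hy hyN D0 k hk hk0 hkd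
    obtain ⟨g, h1, h2, h3⟩ := (glob_ES hG hn C D0).choose_spec k hk0 hkd y hyN hy hk
    refine ⟨g, h1, h2, ?_⟩
    rw [hDP]
    exact h3 z hz ⟨c⟩

/-- **CEN** at the points of a graded cone: the threshold of a saturated weight function at the
points of its centre near `z` is at most `β`. -/
theorem cen_cone (hG : GlobGen) (hn : 1 ≤ n) (hz : GCone.NV z) (c : Chart z (n + 1)) {D : Dat (HM C)}
    (hDP : D.P = ES (n + 1) co z) {v : HM C → ℝ} {β : ℝ} (hv : D.Sat v β) :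
    ∀ᶠ y in 𝓝 z, (∀ f : HM C, 0 < v f → y (co f) = 0) →
      ∀ k ∈ ES (n + 1) co y, (∀ f, 0 ≤ k f) → pair k v ≤ β :=
  cen (nearData hG hn hz c hDP) hv

end Vale.Agent.P271.H244
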