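import Vale.Agent.P271.GLOB.Defs

/-!
P271, block G3 / ADM (helper244): decreasing sequences of smooth plurisubharmonic weights on
`Sheets`, attached to products of powers of sums of squares of holomorphic functions.
-/

open MeasureTheory Filter Topology
open scoped ENNReal NNReal ComplexConjugate

namespace Vale.Agent.P271.H244

open Vale.Agent.P282.L2 Vale.Agent.P282.L2.Sheets Vale.Agent.P271.Glob

variable {n N : ℕ} {S : Sheets n N}

/-- A decreasing sequence of `C²` plurisubharmonic functions on `M`, each bounded below, bounded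
above over bounded sets. -/
structure PshSeq (S : Sheets n N) (φ : ℕ → (Fin n → ℂ) × ℂ → ℝ) : Prop where
  cd : ∀ k, S.CD 2 (fun q => (φ k q : ℂ))
  levi : ∀ k, ∀ q ∈ S.M, ∀ β : Fin n → ℂ, 0 ≤ S.levi (φ k) β q
  anti : ∀ k, ∀ q ∈ S.M, φ (k + 1) q ≤ φ k q
  bdd : ∀ k, ∃ c : ℝ, ∀ q ∈ S.M, c ≤ φ k q
  upper : LocB S (φ 0)

/-- `e^{-φ}` for the limit `φ` of the sequence. -/
noncomputable def wE (φ : ℕ → (Fin n → ℂ) × ℂ → ℝ) (q : (Fin n → ℂ) × ℂ) : ℝ≥0∞ :=
  ⨆ k, ENNReal.ofReal (Real.exp (-φ k q))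

theorem le_wE (φ : ℕ → (Fin n → ℂ) × ℂ → ℝ) (k : ℕ) (q : (Fin n → ℂ) × ℂ) :
    ENNReal.ofReal (Real.exp (-φ k q)) ≤ wE φ q :=
  le_iSup (fun k => ENNReal.ofReal (Real.exp (-φ k q))) k

theorem wE_pos (φ : ℕ → (Fin n → ℂ) × ℂ → ℝ) (q : (Fin n → ℂ) × ℂ) : 0 < wE φ q :=
  lt_of_lt_of_le (ENNReal.ofReal_pos.2 (Real.exp_pos _)) (le_wE φ 0 q)

namespace PshSeq

variable {φ ψ : ℕ → (Fin n → ℂ) × ℂ → ℝ}

theorem antitone (h : PshSeq S φ) {q : (Fin n → ℂ) × ℂ} (hq : q ∈ S.M) :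
    Antitone fun k => φ k q :=
  antitone_nat_of_succ_le fun k => h.anti k q hq

theorem monotone_exp (h : PshSeq S φ) {q : (Fin n → ℂ) × ℂ} (hq : q ∈ S.M) :
    Monotone fun k => ENNReal.ofReal (Real.exp (-φ k q)) := fun _ _ hkl =>
  ENNReal.ofReal_le_ofReal (Real.exp_le_exp.2 (neg_le_neg (h.antitone hq hkl)))

theorem le_zero (h : PshSeq S φ) {q : (Fin n → ℂ) × ℂ} (hq : q ∈ S.M) (k : ℕ) :
    φ k q ≤ φ 0 q := h.antitone hq (Nat.zero_le k)

theorem upper_ball (h : PshSeq S φ) (R : ℝ) : ∃ C : ℝ, ∀ k, ∀ q ∈ S.M, ‖q.1‖ ≤ R →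
    φ k q ≤ C := by
  obtain ⟨C, h1⟩ := h.upper R
  exact ⟨C, fun k q hq hR => (h.le_zero hq k).trans (h1 q hq hR)⟩

theorem zero : PshSeq S (fun _ _ => 0) where
  cd k := by
    have := CD.const (S := S) (m := 2) (0 : ℂ)
    simpa using this
  levi k q hq β := by
    have h := levi_lin (S := S) (Φ := fun _ => (0 : ℝ)) (Ψ := fun _ => (0 : ℝ))
      (by simpa using CD.const (S := S) (m := 2) (0 : ℂ))
      (by simpa using CD.const (S := S) (m := 2) (0 : ℂ)) 0 0 hq β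
    simp only [zero_mul, add_zero] at h
    rw [h]
  anti k q hq := le_refl _
  bdd k := ⟨0, fun q _ => le_refl _⟩
  upper := fun _ => ⟨0, fun q _ _ => le_refl _⟩

theorem add (h : PshSeq S φ) (h' : PshSeq S ψ) : PshSeq S (fun k q => φ k q + ψ k q) where
  cd k := by
    refine ((h.cd k).add (h'.cd k)).congr fun q _ => ?_
    push_cast
    rfl
  levi k q hq β := by
    rw [levi_add (h.cd k) (h'.cd k) hq]
    exact add_nonneg (h.levi k q hq β) (h'.levi k q hq β)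
  anti k q hq := add_le_add (h.anti k q hq) (h'.anti k q hq)
  bdd k := by
    obtain ⟨c, hc⟩ := h.bdd k
    obtain ⟨c', hc'⟩ := h'.bdd k
    exact ⟨c + c', fun q hq => add_le_add (hc q hq) (hc' q hq)⟩
  upper := fun R => by
    obtain ⟨C, h1⟩ := h.upper R
    obtain ⟨C', h1'⟩ := h'.upper R
    exact ⟨C + C', fun q hq hR => add_le_add (h1 q hq hR) (h1' q hq hR)⟩

theorem const_mul (h : PshSeq S φ) {c : ℝ} (hc : 0 ≤ c) : PshSeq S (fun k q => c * φ k q) where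
  cd k := by
    refine ((CD.const (S := S) (m := 2) (c : ℂ)).mul (h.cd k)).congr fun q _ => ?_
    push_cast
    rfl
  levi k q hq β := by
    have h1 := levi_lin (h.cd k) (h.cd k) c 0 hq β
    simp only [zero_mul, add_zero] at h1
    rw [h1]
    exact mul_nonneg hc (h.levi k q hq β)
  anti k q hq := mul_le_mul_of_nonneg_left (h.anti k q hq) hc
  bdd k := by
    obtain ⟨b, hb⟩ := h.bdd k
    exact ⟨c * b, fun q hq => mul_le_mul_of_nonneg_left (hb q hq) hc⟩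
  upper := fun R => by
    obtain ⟨C, h1⟩ := h.upper R
    exact ⟨c * C, fun q hq hR => mul_le_mul_of_nonneg_left (h1 q hq hR) hc⟩

theorem sum {A : Type*} (s : Finset A) {φ : A → ℕ → (Fin n → ℂ) × ℂ → ℝ}
    (h : ∀ a ∈ s, PshSeq S (φ a)) : PshSeq S (fun k q => ∑ a ∈ s, φ a k q) := by
  classical
  induction s using Finset.induction_on with
  | empty => simpa using PshSeq.zero
  | insert a s ha ih =>
    have h1 := (h a (Finset.mem_insert_self a s)).add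
      (ih fun b hb => h b (Finset.mem_insert_of_mem hb))
    have h2 : (fun (k : ℕ) (q : (Fin n → ℂ) × ℂ) => ∑ b ∈ insert a s, φ b k q) =
        fun k q => φ a k q + ∑ b ∈ s, φ b k q := by
      funext k q
      exact Finset.sum_insert ha
    rw [h2]
    exact h1

end PshSeq

/-- The weights `κ log (1/(k+1) + ∑ |g_j|²)`. -/
noncomputable def logw {r : ℕ} (g : Fin r → (Fin n → ℂ) × ℂ → ℂ) (κ : ℝ) (k : ℕ)
    (q : (Fin n → ℂ) × ℂ) : ℝ := κ * Real.log (1 / ((k : ℝ) + 1) + ∑ j, ‖g j q‖ ^ 2)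

theorem delta_pos (k : ℕ) : (0 : ℝ) < 1 / ((k : ℝ) + 1) := by positivity

theorem pshSeq_logw {r : ℕ} {g : Fin r → (Fin n → ℂ) × ℂ → ℂ} (hg : ∀ j, S.Holo (g j))
    (hgr : ∀ j, LocB S (fun q => ‖g j q‖)) {κ : ℝ}
    (hκ : 0 ≤ κ) : PshSeq S (logw g κ) := by
  have h1 : PshSeq S (logw g 1) := by
    refine ⟨fun k => ?_, fun k q hq β => ?_, fun k q hq => ?_, fun k => ?_, ?_⟩
    · simp only [logw, one_mul]
      exact CD.log_normSq_sum hg 2 (delta_pos k)
    · have e : logw g 1 k = fun q => Real.log (1 / ((k : ℝ) + 1) + ∑ j, ‖g j q‖ ^ 2) := by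
        funext q
        simp only [logw, one_mul]
      rw [e]
      refine le_trans ?_ (levi_log_ge hg (delta_pos k) hq β)
      have := delta_pos k
      positivity
    · simp only [logw, one_mul]
      have h2 : (1 : ℝ) / (((k + 1 : ℕ) : ℝ) + 1) ≤ 1 / ((k : ℝ) + 1) := by
        apply one_div_le_one_div_of_le (by positivity)
        push_cast
        linarith
      have h3 := delta_pos (k + 1)
      have h4 : (0 : ℝ) ≤ ∑ j, ‖g j q‖ ^ 2 := Finset.sum_nonneg fun j _ => by positivity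
      exact Real.log_le_log (by linarith) (by linarith)
    · refine ⟨Real.log (1 / ((k : ℝ) + 1)), fun q hq => ?_⟩
      simp only [logw, one_mul]
      have h4 : (0 : ℝ) ≤ ∑ j, ‖g j q‖ ^ 2 := Finset.sum_nonneg fun j _ => by positivity
      exact Real.log_le_log (delta_pos k) (by linarith)
    · intro R
      choose C hC using fun j => hgr j R
      refine ⟨Real.log (1 + ∑ j, C j ^ 2), fun q hq hR => ?_⟩
      simp only [logw, one_mul]
      have h4 : (0 : ℝ) ≤ ∑ j, ‖g j q‖ ^ 2 := Finset.sum_nonneg fun j _ => by positivity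
      have h7 : ∑ j, ‖g j q‖ ^ 2 ≤ ∑ j, C j ^ 2 := Finset.sum_le_sum fun j _ =>
        pow_le_pow_left₀ (norm_nonneg _) (hC j q hq hR) 2
      have h9 : 1 / (((0 : ℕ) : ℝ) + 1) = 1 := by norm_num
      rw [h9]
      exact Real.log_le_log (by linarith) (by linarith)
  have h2 := h1.const_mul hκ
  have h3 : (fun (k : ℕ) (q : (Fin n → ℂ) × ℂ) => κ * logw g 1 k q) = logw g κ := by
    funext k q
    simp [logw]
  rwa [h3] at h2

/-! ### The limit weights -/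

theorem enn_iSup_mul_of_monotone {f g : ℕ → ℝ≥0∞} (hf : Monotone f) (hg : Monotone g)
    (hf0 : 0 < f 0) (hg0 : 0 < g 0) : ⨆ k, f k * g k = (⨆ k, f k) * ⨆ k, g k := by
  have h1 : Tendsto f atTop (𝓝 (⨆ k, f k)) := tendsto_atTop_iSup hf
  have h2 : Tendsto g atTop (𝓝 (⨆ k, g k)) := tendsto_atTop_iSup hg
  have hf1 : (⨆ k, f k) ≠ 0 := (lt_of_lt_of_le hf0 (le_iSup f 0)).ne'
  have hg1 : (⨆ k, g k) ≠ 0 := (lt_of_lt_of_le hg0 (le_iSup g 0)).ne'
  have h3 := ENNReal.Tendsto.mul h1 (Or.inl hf1) h2 (Or.inl hg1)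
  have h4 : Tendsto (fun k => f k * g k) atTop (𝓝 (⨆ k, f k * g k)) :=
    tendsto_atTop_iSup fun a b hab => mul_le_mul' (hf hab) (hg hab)
  exact tendsto_nhds_unique h4 h3

theorem wE_add {φ ψ : ℕ → (Fin n → ℂ) × ℂ → ℝ} (h : PshSeq S φ) (h' : PshSeq S ψ)
    {q : (Fin n → ℂ) × ℂ} (hq : q ∈ S.M) :
    wE (fun k q => φ k q + ψ k q) q = wE φ q * wE ψ q := by
  unfold wE
  rw [← enn_iSup_mul_of_monotone (h.monotone_exp hq) (h'.monotone_exp hq)
    (ENNReal.ofReal_pos.2 (Real.exp_pos _)) (ENNReal.ofReal_pos.2 (Real.exp_pos _))]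
  refine iSup_congr fun k => ?_
  rw [← ENNReal.ofReal_mul (Real.exp_pos _).le, ← Real.exp_add]
  congr 2
  ring

theorem wE_zero (q : (Fin n → ℂ) × ℂ) : wE (fun _ _ => (0 : ℝ)) q = 1 := by
  unfold wE
  simp

theorem wE_sum {A : Type*} (s : Finset A) {φ : A → ℕ → (Fin n → ℂ) × ℂ → ℝ}
    (h : ∀ a ∈ s, PshSeq S (φ a)) {q : (Fin n → ℂ) × ℂ} (hq : q ∈ S.M) :
    wE (fun k q => ∑ a ∈ s, φ a k q) q = ∏ a ∈ s, wE (φ a) q := by
  classical
  induction s using Finset.induction_on with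
  | empty => simpa using wE_zero q
  | insert a s ha ih =>
    rw [Finset.prod_insert ha, ← ih fun b hb => h b (Finset.mem_insert_of_mem hb),
      ← wE_add (h a (Finset.mem_insert_self a s))
        (PshSeq.sum s fun b hb => h b (Finset.mem_insert_of_mem hb)) hq]
    congr 1
    funext k q
    exact Finset.sum_insert ha

/-- The weight `(∑ |g_j|²)^{-κ}`. -/
noncomputable def powW {r : ℕ} (g : Fin r → (Fin n → ℂ) × ℂ → ℂ) (κ : ℝ)
    (q : (Fin n → ℂ) × ℂ) : ℝ≥0∞ := ENNReal.ofReal (∑ j, ‖g j q‖ ^ 2) ^ (-κ)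

theorem exp_neg_logw {r : ℕ} (g : Fin r → (Fin n → ℂ) × ℂ → ℂ) (κ : ℝ) (k : ℕ)
    (q : (Fin n → ℂ) × ℂ) : ENNReal.ofReal (Real.exp (-logw g κ k q)) =
      ENNReal.ofReal (1 / ((k : ℝ) + 1) + ∑ j, ‖g j q‖ ^ 2) ^ (-κ) := by
  have h0 : (0 : ℝ) < 1 / ((k : ℝ) + 1) + ∑ j, ‖g j q‖ ^ 2 :=
    add_pos_of_pos_of_nonneg (delta_pos k) (Finset.sum_nonneg fun j _ => by positivity)
  rw [ENNReal.ofReal_rpow_of_pos h0, Real.rpow_def_of_pos h0]
  congr 2
  unfold logw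
  ring

theorem wE_logw {r : ℕ} (g : Fin r → (Fin n → ℂ) × ℂ → ℂ) {κ : ℝ} (hκ : 0 ≤ κ)
    (q : (Fin n → ℂ) × ℂ) : wE (logw g κ) q = powW g κ q := by
  set s : ℝ := ∑ j, ‖g j q‖ ^ 2 with hs
  have hs0 : 0 ≤ s := Finset.sum_nonneg fun j _ => by positivity
  have h1 : Monotone fun k : ℕ => ENNReal.ofReal (1 / ((k : ℝ) + 1) + s) ^ (-κ) := by
    intro a b hab
    have h2 : 1 / ((b : ℝ) + 1) + s ≤ 1 / ((a : ℝ) + 1) + s := by
      have : (1 : ℝ) / ((b : ℝ) + 1) ≤ 1 / ((a : ℝ) + 1) :=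
        one_div_le_one_div_of_le (by positivity) (by
          have : (a : ℝ) ≤ b := by exact_mod_cast hab
          linarith)
      linarith
    simp only [ENNReal.rpow_neg]
    exact ENNReal.inv_le_inv.2 (ENNReal.rpow_le_rpow (ENNReal.ofReal_le_ofReal h2) hκ)
  have h3 : Tendsto (fun k : ℕ => ENNReal.ofReal (1 / ((k : ℝ) + 1) + s) ^ (-κ)) atTop
      (𝓝 (ENNReal.ofReal s ^ (-κ))) := by
    have h4 : Tendsto (fun k : ℕ => 1 / ((k : ℝ) + 1) + s) atTop (𝓝 (0 + s)) :=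
      tendsto_one_div_add_atTop_nhds_zero_nat.add_const s
    rw [zero_add] at h4
    exact (ENNReal.continuous_rpow_const.tendsto _).comp
      ((ENNReal.continuous_ofReal.tendsto _).comp h4)
  unfold wE powW
  simp_rw [exp_neg_logw]
  exact tendsto_nhds_unique (tendsto_atTop_iSup h1) h3

/-- Scaling of the weights. -/
theorem powW_scale {r : ℕ} {g : Fin r → (Fin n → ℂ) × ℂ → ℂ} {κ : ℝ} {q q' : (Fin n → ℂ) × ℂ}
    {c : ℝ} (hc : 0 < c) (h : ∀ j, ‖g j q'‖ = c * ‖g j q‖) :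
    powW g κ q' = ENNReal.ofReal (c ^ (-2 * κ)) * powW g κ q := by
  unfold powW
  have h1 : ∑ j, ‖g j q'‖ ^ 2 = c ^ 2 * ∑ j, ‖g j q‖ ^ 2 := by
    rw [Finset.mul_sum]
    refine Finset.sum_congr rfl fun j _ => ?_
    rw [h j]
    ring
  rw [h1, ENNReal.ofReal_mul (by positivity), ENNReal.mul_rpow_of_ne_top ENNReal.ofReal_ne_top
    ENNReal.ofReal_ne_top, ENNReal.ofReal_rpow_of_pos (by positivity)]
  congr 2
  rw [← Real.rpow_natCast, ← Real.rpow_mul hc.le]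
  congr 1
  push_cast
  ring

/-! ### Weights from homogeneous functions -/

/-- Finite families of holomorphic functions `g_{a,j}` on `M`, homogeneous of degree `d_a`, with
exponents `κ_a ≥ 0`: the data of the weight `W = ∏_a (∑_j |g_{a,j}|²)^{-κ_a}`. -/
structure WData (S : Sheets n N) (N' e : ℕ) {A : Type} [Fintype A] (r : A → ℕ)
    (g : ∀ a, Fin (r a) → (Fin n → ℂ) × ℂ → ℂ) (d : A → ℕ) (κ : A → ℝ) : Prop where
  holo : ∀ a j, S.Holo (g a j)
  loc : ∀ a j, LocB S (fun q => ‖g a j q‖)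
  hom : ∀ a j, ∀ t : ℂ, t ≠ 0 → ∀ q ∈ S.M, g a j (act N' e t q) = t ^ d a * g a j q
  nonneg : ∀ a, 0 ≤ κ a

/-- The weight of the data. -/
noncomputable def wW {A : Type} [Fintype A] {r : A → ℕ}
    (g : ∀ a, Fin (r a) → (Fin n → ℂ) × ℂ → ℂ) (κ : A → ℝ) (q : (Fin n → ℂ) × ℂ) : ℝ≥0∞ :=
  ∏ a, powW (g a) (κ a) q

/-- The smooth approximations of the weight. -/
noncomputable def wPhi {A : Type} [Fintype A] {r : A → ℕ}
    (g : ∀ a, Fin (r a) → (Fin n → ℂ) × ℂ → ℂ) (κ : A → ℝ) (k : ℕ) (q : (Fin n → ℂ) × ℂ) : ℝ :=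
  ∑ a, logw (g a) (κ a) k q

theorem WData.pshSeq {N' e : ℕ} {A : Type} [Fintype A] {r : A → ℕ}
    {g : ∀ a, Fin (r a) → (Fin n → ℂ) × ℂ → ℂ} {d : A → ℕ} {κ : A → ℝ}
    (h : WData S N' e r g d κ) : PshSeq S (wPhi g κ) :=
  PshSeq.sum Finset.univ fun a _ => pshSeq_logw (h.holo a) (h.loc a) (h.nonneg a)

theorem WData.wE_eq {N' e : ℕ} {A : Type} [Fintype A] {r : A → ℕ}
    {g : ∀ a, Fin (r a) → (Fin n → ℂ) × ℂ → ℂ} {d : A → ℕ} {κ : A → ℝ}
    (h : WData S N' e r g d κ) {q : (Fin n → ℂ) × ℂ} (hq : q ∈ S.M) :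
    wE (wPhi g κ) q = wW g κ q := by
  have h1 := wE_sum (S := S) Finset.univ (φ := fun a => logw (g a) (κ a))
    (fun a _ => pshSeq_logw (h.holo a) (h.loc a) (h.nonneg a)) hq
  unfold wPhi wW
  rw [h1]
  exact Finset.prod_congr rfl fun a _ => wE_logw (g a) (h.nonneg a) q

/-- The weight of the data is a weight in the sense of the global theorem. -/
theorem WData.weight {N' e : ℕ} {A : Type} [Fintype A] {r : A → ℕ}
    {g : ∀ a, Fin (r a) → (Fin n → ℂ) × ℂ → ℂ} {d : A → ℕ} {κ : A → ℝ}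
    (h : WData S N' e r g d κ) : Weight S N' e (wPhi g κ) (wW g κ) (∑ a, κ a * d a) where
  cd := h.pshSeq.cd
  levi := h.pshSeq.levi
  anti := h.pshSeq.anti
  bdd := h.pshSeq.bdd
  loc := h.pshSeq.upper
  sup q hq := (h.wE_eq hq).symm
  hom t ht q hq := by
    have ht' : 0 < ‖t‖ := norm_pos_iff.2 ht
    have h1 : ∀ a, powW (g a) (κ a) (act N' e t q) =
        ENNReal.ofReal (‖t‖ ^ (-2 * (κ a * d a))) * powW (g a) (κ a) q := by
      intro a
      rw [powW_scale (q := q) (q' := act N' e t q) (c := ‖t‖ ^ d a) (by positivity) fun j => by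
        rw [h.hom a j t ht q hq, norm_mul, norm_pow]]
      congr 2
      rw [← Real.rpow_natCast, ← Real.rpow_mul ht'.le]
      congr 1
      ring
    unfold wW
    simp_rw [h1]
    rw [Finset.prod_mul_distrib, ← ENNReal.ofReal_prod_of_nonneg fun a _ => by positivity]
    congr 2
    rw [← Real.rpow_sum_of_pos ht']
    congr 1
    rw [Finset.mul_sum]

end Vale.Agent.P271.H244
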