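import Vale.Agent.P271.H244.PshSeq
import Vale.Agent.P271.H741.Tube2

/-!
P271 (helper244): the weight of the global theorem attached to a weight `w : RWeight C` on the cone.
-/

open MeasureTheory Filter Topology
open scoped ENNReal NNReal ComplexConjugate

namespace Vale.Agent.P271.H244

open Vale.Agent.P282.L2 Vale.Agent.P271.Sch Vale.Agent.P271.H741 Vale.Agent.P271.Glob

variable {n : ℕ} {C : GCone n} [Algebra (Pol (n + 1)) C.K] [IsScalarTower ℂ (Pol (n + 1)) C.K]
  [FaithfulSMul (Pol (n + 1)) C.K] (V : Cov C) {N' : ℕ} {S : Sheets (n + 1) N'}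

/-- The weight `w` as a function on `M`. -/
noncomputable def rW (w : RWeight C) (q : (Fin (n + 1) → ℂ) × ℂ) : ℝ≥0∞ :=
  ∏ a, (ENNReal.ofReal (∑ j, ‖V.f (w.g a j) q‖ ^ 2)) ^ (-w.κ a)

theorem rW_eq (hS : V.E.IsSheets S) (w : RWeight C) {q : (Fin (n + 1) → ℂ) × ℂ} (hq : q ∈ S.M) :
    rW V w q = w.val (V.pt hS hq) := rfl

theorem rW_qq (hS : V.E.IsSheets S) (w : RWeight C) {φ : C.Pt} (h : φ V.h' ≠ 0) :
    rW V w (V.qq φ) = w.val φ := by
  unfold rW RWeight.val
  refine Finset.prod_congr rfl fun a _ => ?_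
  congr 2
  exact Finset.sum_congr rfl fun j _ => by rw [V.ev_qq hS h]

/-- The approximations of the weight. -/
noncomputable def rPhi (w : RWeight C) : ℕ → (Fin (n + 1) → ℂ) × ℂ → ℝ :=
  wPhi (fun a j => V.f (w.g a j)) w.κ

theorem rW_def (w : RWeight C) : rW V w = wW (fun a j => V.f (w.g a j)) w.κ := rfl

/-- The weight on the cone gives a weight of the global theorem. -/
theorem rweight (hS : V.E.IsSheets S) (w : RWeight C) :
    Weight S V.N V.e (rPhi V w) (rW V w) w.deg :=
  WData.weight (d := w.d) (κ := w.κ) (g := fun a j => V.f (w.g a j))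
    { holo := fun _ _ => V.f_holo hS _
      loc := fun _ _ => V.locB_f hS _
      hom := fun a j _ ht _ hq => V.f_act hS (w.mem a j) hq ht
      nonneg := w.nonneg }

end Vale.Agent.P271.H244
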